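import Mathlib

/-!
Elementary arithmetic lemmas for the block construction: the relation between residues of a
midpoint triple, and sign analysis of the quadratic potential.
-/

namespace Vale.Agent.Lib.P057

/-- Residues of a midpoint triple in `ZMod p`. -/
theorem zmod_mid_cases {p : ℕ} [NeZero p] (x z y : ZMod p) (h : x + z = y + y) :
    x.val + z.val = 2 * y.val ∨ x.val + z.val = 2 * y.val + p ∨ x.val + z.val + p = 2 * y.val := by
  have hx := ZMod.val_lt x
  have hz := ZMod.val_lt z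
  have hy := ZMod.val_lt y
  have e : ((x.val + z.val : ℕ) : ZMod p) = ((2 * y.val : ℕ) : ZMod p) := by
    push_cast
    rw [ZMod.natCast_zmod_val, ZMod.natCast_zmod_val, ZMod.natCast_zmod_val, h]
    ring
  rw [ZMod.natCast_eq_natCast_iff, Nat.modEq_iff_dvd] at e
  obtain ⟨k, hk⟩ := e
  push_cast at hk
  have hp : (0 : ℤ) < p := by exact_mod_cast (Nat.pos_of_ne_zero (NeZero.ne p))
  have hk1 : k < 2 := by
    by_contra hc
    have : (2 : ℤ) ≤ k := by omega
    have : (p : ℤ) * 2 ≤ p * k := by gcongr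
    have h3 : (x.val : ℤ) < p := by exact_mod_cast hx
    have h4 : (z.val : ℤ) < p := by exact_mod_cast hz
    have h5 : (y.val : ℤ) < p := by exact_mod_cast hy
    have h6 : (0 : ℤ) ≤ x.val := by positivity
    have h7 : (0 : ℤ) ≤ z.val := by positivity
    linarith
  have hk2 : -2 < k := by
    by_contra hc
    have : k ≤ -2 := by omega
    have : (p : ℤ) * k ≤ p * (-2) := by gcongr
    have h3 : (x.val : ℤ) < p := by exact_mod_cast hx
    have h4 : (z.val : ℤ) < p := by exact_mod_cast hz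
    have h5 : (y.val : ℤ) < p := by exact_mod_cast hy
    have h6 : (0 : ℤ) ≤ y.val := by positivity
    linarith
  have hcases : k = -1 ∨ k = 0 ∨ k = 1 := by omega
  rcases hcases with rfl | rfl | rfl
  · right; left
    have : (2 * (y.val : ℤ) - (x.val + z.val)) = -p := by rw [hk]; ring
    omega
  · left
    have : (2 * (y.val : ℤ) - (x.val + z.val)) = 0 := by rw [hk]; ring
    omega
  · right; right
    have : (2 * (y.val : ℤ) - (x.val + z.val)) = p := by rw [hk]; ring
    omega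

/-- In `ZMod p` with `p` odd, doubling is injective. -/
theorem zmod_double_inj {p : ℕ} [NeZero p] (hodd : Odd p) (x y : ZMod p) (h : x + x = y + y) :
    x = y := by
  have := zmod_mid_cases x x y h
  obtain ⟨m, hm⟩ := hodd
  apply ZMod.val_injective p
  rcases this with h1 | h1 | h1 <;> omega

/-- Far row with the bigger residue sum: the quadratic gain is at least `p^2 / 2`. -/
theorem far_down_gain (i1 i2 i3 p : ℤ) (h : i1 + i3 = 2 * i2 + p) (hp : 0 ≤ p) (h2 : 0 ≤ i2) :
    p ^ 2 ≤ 2 * (i1 ^ 2 + i3 ^ 2 - 2 * i2 ^ 2) := by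
  have e : i1 = 2 * i2 + p - i3 := by linarith
  subst e
  nlinarith [sq_nonneg (2 * i2 + p - i3 - i3), mul_nonneg hp h2, mul_nonneg hp hp]

/-- Near row: the quadratic gain is half the square of the difference. -/
theorem near_gain (i1 i2 i3 : ℤ) (h : i1 + i3 = 2 * i2) :
    (i1 - i3) ^ 2 = 2 * (i1 ^ 2 + i3 ^ 2 - 2 * i2 ^ 2) := by
  have e : i1 = 2 * i2 - i3 := by linarith
  subst e
  ring

/-- Sign analysis of the fibre potential. -/
theorem fiber_value (t1 t2 t3 P m : ℤ) (hP : 0 < P) (ht2 : 0 ≤ t2)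
    (hrel : t1 + t3 = 2 * t2 + m * P) (hm : 0 ≤ m) :
    0 ≤ t1 ^ 2 + t3 ^ 2 - 2 * t2 ^ 2 ∧
      (t1 ^ 2 + t3 ^ 2 - 2 * t2 ^ 2 = 0 → m = 0 ∧ t1 = t3) := by
  have e : 2 * (t1 ^ 2 + t3 ^ 2 - 2 * t2 ^ 2) = (t1 - t3) ^ 2 + 4 * m * P * t2 + (m * P) ^ 2 := by
    have e1 : t1 = 2 * t2 + m * P - t3 := by linarith
    subst e1
    ring
  have hmP : 0 ≤ m * P := mul_nonneg hm hP.le
  have h1 : 0 ≤ 4 * m * P * t2 := by
    have : 4 * m * P * t2 = 4 * (m * P) * t2 := by ring
    rw [this]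
    positivity
  constructor
  · have : 0 ≤ (t1 - t3) ^ 2 := sq_nonneg _
    have h3 : 0 ≤ (m * P) ^ 2 := sq_nonneg _
    linarith
  · intro h0
    have h2 : (t1 - t3) ^ 2 + 4 * m * P * t2 + (m * P) ^ 2 = 0 := by rw [← e, h0]; ring
    have h3 : 0 ≤ (m * P) ^ 2 := sq_nonneg _
    have h4 : 0 ≤ (t1 - t3) ^ 2 := sq_nonneg _
    have h5 : (m * P) ^ 2 = 0 := by linarith
    have h6 : (t1 - t3) ^ 2 = 0 := by linarith
    have h7 : m * P = 0 := by simpa using h5
    have h8 : t1 - t3 = 0 := by simpa using h6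
    refine ⟨?_, by linarith⟩
    rcases mul_eq_zero.1 h7 with h | h
    · exact h
    · exact absurd h hP.ne'

end Vale.Agent.Lib.P057
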