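import Mathlib

/-!
Strict midpoint potentials on finite abelian groups, products, transfer along additive
isomorphisms, and the passage from a potential on `ZMod L` to a lower bound for `rothNumberNat L`.
-/

namespace Vale.Agent.Lib.P057

open Finset

variable {G H : Type*} [AddCommGroup G] [AddCommGroup H]

/-- `f` is a strict midpoint potential on `K`. -/
def GoodSet (K : Finset G) (f : G → ℕ) : Prop :=
  ∀ x ∈ K, ∀ y ∈ K, ∀ z ∈ K, x + z = y + y → x ≠ y → 2 * f y < f x + f z

theorem GoodSet.weak {K : Finset G} {f : G → ℕ} (h : GoodSet K f) {x y z : G}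
    (hx : x ∈ K) (hy : y ∈ K) (hz : z ∈ K) (e : x + z = y + y) : 2 * f y ≤ f x + f z := by
  by_cases hxy : x = y
  · subst hxy
    have : z = x := add_left_cancel e
    subst this
    omega
  · exact (h x hx y hy z hz e hxy).le

theorem GoodSet.prod {K₁ : Finset G} {K₂ : Finset H} {f₁ : G → ℕ} {f₂ : H → ℕ}
    (h₁ : GoodSet K₁ f₁) (h₂ : GoodSet K₂ f₂) :
    GoodSet (K₁ ×ˢ K₂) (fun x => f₁ x.1 + f₂ x.2) := by
  intro x hx y hy z hz e hne
  simp only [mem_product] at hx hy hz
  have e1 : x.1 + z.1 = y.1 + y.1 := by simpa using congrArg Prod.fst e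
  have e2 : x.2 + z.2 = y.2 + y.2 := by simpa using congrArg Prod.snd e
  have w1 := h₁.weak hx.1 hy.1 hz.1 e1
  have w2 := h₂.weak hx.2 hy.2 hz.2 e2
  by_cases h1 : x.1 = y.1
  · have h2 : x.2 ≠ y.2 := fun h2 => hne (Prod.ext h1 h2)
    have s2 := h₂ _ hx.2 _ hy.2 _ hz.2 e2 h2
    show 2 * (f₁ y.1 + f₂ y.2) < (f₁ x.1 + f₂ x.2) + (f₁ z.1 + f₂ z.2)
    omega
  · have s1 := h₁ _ hx.1 _ hy.1 _ hz.1 e1 h1
    show 2 * (f₁ y.1 + f₂ y.2) < (f₁ x.1 + f₂ x.2) + (f₁ z.1 + f₂ z.2)
    omega

/-- Transfer of a potential along an additive isomorphism. -/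
theorem GoodSet.map {K : Finset G} {f : G → ℕ} (h : GoodSet K f) (e : G ≃+ H) :
    GoodSet (K.map e.toEquiv.toEmbedding) (fun x => f (e.symm x)) := by
  intro x hx y hy z hz hxz hne
  simp only [mem_map] at hx hy hz
  obtain ⟨x', hx', rfl⟩ := hx
  obtain ⟨y', hy', rfl⟩ := hy
  obtain ⟨z', hz', rfl⟩ := hz
  have hxz' : x' + z' = y' + y' := by
    apply e.injective
    simpa [map_add] using hxz
  have hne' : x' ≠ y' := fun h' => hne (by rw [h'])
  have := h x' hx' y' hy' z' hz' hxz' hne'
  simpa using this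

/-- From a potential on `ZMod L` to the Roth number of `L`. -/
theorem card_le_mul_rothNumberNat {L : ℕ} [NeZero L] (K : Finset (ZMod L)) (f : ZMod L → ℕ)
    (hK : GoodSet K f) (F : ℕ) (hF : ∀ x ∈ K, f x ≤ F) :
    K.card ≤ rothNumberNat L * (F + 1) := by
  have hmaps : ∀ a ∈ K, f a ∈ range (F + 1) := fun a ha => mem_range.2 (Nat.lt_succ_of_le (hF a ha))
  have := card_le_mul_card_image_of_maps_to hmaps (rothNumberNat L) ?_
  · simpa using this
  intro v _
  set T : Finset (ZMod L) := K.filter fun a => f a = v with hT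
  have hval : Function.Injective (ZMod.val : ZMod L → ℕ) := ZMod.val_injective L
  have key : (T.image ZMod.val).card = T.card := card_image_of_injective _ hval
  rw [← key]
  refine ThreeAPFree.le_rothNumberNat _ ?_ ?_ rfl
  · intro a ha b hb c hc habc
    simp only [coe_image, Set.mem_image, mem_coe] at ha hb hc
    obtain ⟨x, hx, rfl⟩ := ha
    obtain ⟨y, hy, rfl⟩ := hb
    obtain ⟨z, hz, rfl⟩ := hc
    simp only [hT, mem_filter] at hx hy hz
    have e : x + z = y + y := by
      have := congrArg (Nat.cast : ℕ → ZMod L) habc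
      simpa [ZMod.natCast_zmod_val] using this
    by_contra hne
    have hne' : x ≠ y := fun h => hne (by rw [h])
    have := hK x hx.1 y hy.1 z hz.1 e hne'
    omega
  · intro x hx
    simp only [mem_image] at hx
    obtain ⟨y, _, rfl⟩ := hx
    exact ZMod.val_lt y

/-- Subadditivity of the Roth number, iterated. -/
theorem rothNumberNat_mul_le (k N : ℕ) : rothNumberNat (k * N) ≤ k * rothNumberNat N := by
  induction k with
  | zero => simp
  | succ k ih =>
    calc rothNumberNat ((k + 1) * N) = rothNumberNat (k * N + N) := by rw [Nat.succ_mul]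
      _ ≤ rothNumberNat (k * N) + rothNumberNat N := rothNumberNat_add_le _ _
      _ ≤ k * rothNumberNat N + rothNumberNat N := by omega
      _ = (k + 1) * rothNumberNat N := by rw [Nat.succ_mul]

/-- Density at a larger scale transfers to a smaller one, with a factor two. -/
theorem rothNumberNat_density {N L : ℕ} (hN : 0 < N) (hL : N ≤ L) :
    (rothNumberNat L : ℝ) * N ≤ 2 * L * rothNumberNat N := by
  set k := L / N + 1 with hk
  have hLk : L ≤ k * N := by
    have := Nat.lt_div_mul_add (a := L) hN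
    rw [hk, Nat.succ_mul]
    omega
  have h1 : rothNumberNat L ≤ k * rothNumberNat N :=
    (rothNumberNat.monotone hLk).trans (rothNumberNat_mul_le k N)
  have h2 : k * N ≤ 2 * L := by
    have := Nat.div_mul_le_self L N
    rw [hk, Nat.succ_mul]
    omega
  have h1' : (rothNumberNat L : ℝ) ≤ k * rothNumberNat N := by exact_mod_cast h1
  have h2' : (k : ℝ) * N ≤ 2 * L := by exact_mod_cast h2
  have hr : (0 : ℝ) ≤ rothNumberNat N := Nat.cast_nonneg _
  have hNpos : (0 : ℝ) ≤ N := Nat.cast_nonneg _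
  calc (rothNumberNat L : ℝ) * N ≤ (k * rothNumberNat N) * N := by gcongr
    _ = (k * N) * rothNumberNat N := by ring
    _ ≤ (2 * L) * rothNumberNat N := by gcongr

/-- Assembly over `n` pairs of distinct primes from a finite set `s`. `PairCert` is the
hypothesis that every pair of distinct primes from `s` carries a potential. -/
theorem exists_good_zmod (cNum cDen Fp : ℕ) (s0 : Finset ℕ)
    (hs0 : ∀ p ∈ s0, p.Prime)
    (pair : ∀ p ∈ s0, ∀ q ∈ s0, p ≠ q → ∃ K : Finset (ZMod p × ZMod q), ∃ f : ZMod p × ZMod q → ℕ,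
      GoodSet K f ∧ cNum * (p * q) ≤ cDen * K.card ∧ ∀ x ∈ K, f x ≤ Fp)
    (X : ℕ) (hX : ∀ p ∈ s0, X ≤ p) :
    ∀ (n : ℕ) (s : Finset ℕ), s ⊆ s0 → 2 * n ≤ s.card →
      ∃ L : ℕ, L ≠ 0 ∧ X ^ (2 * n) ≤ L ∧ (∀ q : ℕ, q.Prime → q ∣ L → q ∈ s) ∧
        ∃ K : Finset (ZMod L), ∃ f : ZMod L → ℕ, GoodSet K f ∧
          cNum ^ n * L ≤ cDen ^ n * K.card ∧ ∀ x ∈ K, f x ≤ n * Fp := by
  intro n
  induction n with
  | zero =>
    intro s _ _
    refine ⟨1, one_ne_zero, by simp, ?_, {0}, fun _ => 0, ?_, by simp, by simp⟩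
    · intro q hq hq1
      exact absurd (Nat.dvd_one.1 hq1) hq.one_lt.ne'
    · intro x _ y _ z _ _ hne
      exact absurd (Subsingleton.elim x y) hne
  | succ n ih =>
    intro s hs hcard
    have h2 : 2 ≤ s.card := by omega
    obtain ⟨p, hp, q, hq, hpq⟩ : ∃ p ∈ s, ∃ q ∈ s, p ≠ q :=
      Finset.one_lt_card.1 (by omega : 1 < s.card)
    set s' := (s.erase p).erase q with hs'
    have hs'sub : s' ⊆ s0 := fun x hx => hs (mem_of_mem_erase (mem_of_mem_erase hx))
    have hcard' : 2 * n ≤ s'.card := by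
      rw [hs', card_erase_of_mem (mem_erase.2 ⟨hpq.symm, hq⟩), card_erase_of_mem hp]
      omega
    obtain ⟨L', hL'0, hL'X, hL'pr, K', f', hK', hc', hF'⟩ := ih s' hs'sub hcard'
    have hpP := hs0 p (hs hp)
    have hqP := hs0 q (hs hq)
    obtain ⟨K₁, f₁, hK₁, hc₁, hF₁⟩ := pair p (hs hp) q (hs hq) hpq
    have cop1 : Nat.Coprime p q := (Nat.coprime_primes hpP hqP).2 hpq
    have hpL : Nat.Coprime p L' := by
      rw [hpP.coprime_iff_not_dvd]
      intro hd
      have := hL'pr p hpP hd
      simp [hs'] at this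
    have hqL : Nat.Coprime q L' := by
      rw [hqP.coprime_iff_not_dvd]
      intro hd
      have := hL'pr q hqP hd
      simp [hs'] at this
    have cop2 : Nat.Coprime (p * q) L' := Nat.Coprime.mul_left hpL hqL
    set e : (ZMod p × ZMod q) × ZMod L' ≃+ ZMod (p * q * L') :=
      (AddEquiv.prodCongr (ZMod.chineseRemainder cop1).toAddEquiv.symm (AddEquiv.refl _)).trans
        (ZMod.chineseRemainder cop2).toAddEquiv.symm with he
    refine ⟨p * q * L', mul_ne_zero (mul_ne_zero hpP.ne_zero hqP.ne_zero) hL'0, ?_, ?_,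
      (K₁ ×ˢ K').map e.toEquiv.toEmbedding, fun x => (fun y => f₁ y.1 + f' y.2) (e.symm x),
      (hK₁.prod hK').map e, ?_, ?_⟩
    · have hXp := hX p (hs hp)
      have hXq := hX q (hs hq)
      calc X ^ (2 * (n + 1)) = X * X * X ^ (2 * n) := by ring
        _ ≤ p * q * L' := by gcongr
    · intro r hr hrd
      rcases (Nat.Prime.dvd_mul hr).1 hrd with h | h
      · rcases (Nat.Prime.dvd_mul hr).1 h with h | h
        · rw [(Nat.prime_dvd_prime_iff_eq hr hpP).1 h]; exact hp
        · rw [(Nat.prime_dvd_prime_iff_eq hr hqP).1 h]; exact hq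
      · exact mem_of_mem_erase (mem_of_mem_erase (hL'pr r hr h))
    · rw [card_map, card_product]
      calc cNum ^ (n + 1) * (p * q * L') = (cNum * (p * q)) * (cNum ^ n * L') := by ring
        _ ≤ (cDen * K₁.card) * (cDen ^ n * K'.card) := by gcongr
        _ = cDen ^ (n + 1) * (K₁.card * K'.card) := by ring
    · intro x hx
      simp only [mem_map] at hx
      obtain ⟨y, hy, rfl⟩ := hx
      simp only [mem_product] at hy
      have h1 := hF₁ _ hy.1
      have h2 := hF' _ hy.2
      simp only [Equiv.coe_toEmbedding, AddEquiv.toEquiv_eq_coe, EquivLike.coe_coe,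
        AddEquiv.symm_apply_apply]
      calc f₁ y.1 + f' y.2 ≤ Fp + n * Fp := by omega
        _ = (n + 1) * Fp := by ring

end Vale.Agent.Lib.P057
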