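import Mathlib
import Vale.Agent.Lib.P057.Good
import Vale.Agent.Lib.P057.Arith

/-!
The block construction in `ZMod p × ZMod P` and its potential.
-/

namespace Vale.Agent.Lib.P057

open Finset

/-- Data of a block table: `N` blocks of rows; fibres measured in units `1 / (2 * H)`;
gap parameter `G`; for block `g` the first arc starts at `α g` and has length `w g`, the second
arc starts half a circle later and has length `e g`. -/
structure Tbl where
  N : ℕ
  H : ℕ
  G : ℕ
  α : ℕ → ℕ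
  w : ℕ → ℕ
  e : ℕ → ℕ

namespace Tbl

variable (T : Tbl)

/-- The denominator. -/
def D : ℕ := 2 * T.H

/-- Left end of the arc of sheet `s` in block `g`. -/
def arcL (s : Bool) (g : ℕ) : ℕ := if s then T.α g + T.H else T.α g

/-- Right end of the arc of sheet `s` in block `g`. -/
def arcH (s : Bool) (g : ℕ) : ℕ := if s then T.α g + T.H + T.e g else T.α g + T.w g

/-- `a` lies in the arc of sheet `s` of block `g`, at fibre modulus `P`. -/
def Mem (s : Bool) (g P a : ℕ) : Prop := T.arcL s g * P ≤ a * T.D ∧ a * T.D < T.arcH s g * P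

/-- The row `i` avoids the gap at the end of its block. -/
def RowOK (p i : ℕ) : Prop := T.G * (i * T.N % p) < (T.G - 1) * p

/-- The block of the row `i`. -/
def blk (p i : ℕ) : ℕ := i * T.N / p

/-- The ceiling of `x / D`. -/
def ceilD (x : ℕ) : ℕ := (x + T.D - 1) / T.D

/-- The fibre coordinate used in the potential. -/
def tval (g P a : ℕ) : ℕ :=
  if a * T.D < (T.α g + T.H) * P then P + 2 * T.ceilD (T.α g * P) - 2 * a
  else 2 * P + 2 * T.ceilD (T.α g * P) - 2 * a

/-- Membership in the construction, on residues. -/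
def InK (p P i a : ℕ) : Prop :=
  T.RowOK p i ∧ (T.Mem false (T.blk p i) P a ∨ T.Mem true (T.blk p i) P a)

/-- The potential. -/
def potential (A p P : ℕ) (x : ZMod p × ZMod P) : ℕ :=
  A * x.1.val ^ 2 + (T.tval (T.blk p x.1.val) P x.2.val) ^ 2

open Classical in
/-- The construction. -/
noncomputable def K (p P : ℕ) [NeZero p] [NeZero P] : Finset (ZMod p × ZMod P) :=
  univ.filter fun x => T.InK p P x.1.val x.2.val

/-- What the table has to satisfy. -/
structure Valid : Prop where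
  hN : 0 < T.N
  hH : 0 < T.H
  hG : 2 ≤ T.G
  hwe : ∀ g < T.N, T.w g + T.e g + 1 ≤ T.H
  htop : ∀ g < T.N, T.α g + T.H + T.e g ≤ 2 * T.H
  far : ∀ g1 < T.N, ∀ g3 < T.N, ∀ g2 < T.N, g1 + g3 + T.N < 2 * g2 + 2 → 2 * g2 < g1 + g3 + T.N + 2 →
    ∀ (s1 s3 s2 : Bool) (k : ℕ), k ≤ 2 →
      T.arcL s1 g1 < T.arcH s1 g1 → T.arcL s3 g3 < T.arcH s3 g3 → T.arcL s2 g2 < T.arcH s2 g2 →
      ¬ (T.arcL s1 g1 + T.arcL s3 g3 + T.D < 2 * T.arcH s2 g2 + k * T.D ∧
        2 * T.arcL s2 g2 + k * T.D < T.arcH s1 g1 + T.arcH s3 g3 + T.D)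

variable {T}

theorem D_pos (hT : T.Valid) : 0 < T.D := by
  have := hT.hH
  unfold Tbl.D
  omega

theorem ceilD_spec (hT : T.Valid) (x : ℕ) :
    x ≤ T.D * T.ceilD x ∧ T.D * T.ceilD x < x + T.D := by
  have hD := D_pos hT
  unfold Tbl.ceilD
  have h1 := Nat.div_add_mod (x + T.D - 1) T.D
  have h2 := Nat.mod_lt (x + T.D - 1) hD
  omega

/-- Sheet bookkeeping for a point of an arc. -/
theorem t_bounds (hT : T.Valid) {s : Bool} {g P a : ℕ} (hg : g < T.N) (hP : T.D ≤ P)
    (h : T.Mem s g P a) :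
    T.tval g P a + 2 * a = (if s then 2 else 1) * P + 2 * T.ceilD (T.α g * P) ∧
    T.tval g P a ≤ P + 1 ∧
    T.D * P < T.D * T.tval g P a + 2 * ((if s then T.e g else T.w g) * P) := by
  have hD := D_pos hT
  have hwe := hT.hwe g hg
  have htop := hT.htop g hg
  obtain ⟨hL1, hL2⟩ := ceilD_spec hT (T.α g * P)
  set L := T.ceilD (T.α g * P) with hL
  have hDH : T.D = 2 * T.H := rfl
  have hPpos : 0 < P := lt_of_lt_of_le hD hP
  obtain ⟨h1, h2⟩ := h
  cases s with
  | false =>
    simp only [arcL, arcH, Bool.false_eq_true, if_false] at h1 h2 ⊢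
    have h2' : a * T.D < T.α g * P + T.w g * P := by rw [add_mul] at h2; exact h2
    have hbr : a * T.D < (T.α g + T.H) * P := by
      have : T.w g * P ≤ T.H * P := Nat.mul_le_mul_right _ (by omega)
      rw [add_mul]
      omega
    have hw2 : 2 * (T.w g * P) + 2 * P ≤ T.D * P := by
      have : (2 * T.w g + 2) * P ≤ T.D * P := Nat.mul_le_mul_right _ (by omega)
      nlinarith
    have hLa : L ≤ a := by
      by_contra hc
      have : a + 1 ≤ L := by omega
      have : T.D * (a + 1) ≤ T.D * L := Nat.mul_le_mul_left _ this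
      nlinarith
    have ha2 : 2 * a < P + 2 * L := by
      by_contra hc
      have hc' : P + 2 * L ≤ 2 * a := by omega
      have := Nat.mul_le_mul_left T.D hc'
      nlinarith
    have ht : T.tval g P a = P + 2 * L - 2 * a := by
      unfold Tbl.tval
      rw [if_pos hbr]
    rw [ht]
    refine ⟨by omega, by omega, ?_⟩
    have e1 : P + 2 * L - 2 * a + 2 * a = P + 2 * L := by omega
    have e2 : T.D * (P + 2 * L - 2 * a + 2 * a) = T.D * (P + 2 * L) := by rw [e1]
    nlinarith
  | true =>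
    simp only [arcL, arcH, if_true] at h1 h2 ⊢
    have h1' : T.α g * P + T.H * P ≤ a * T.D := by rw [← add_mul]; exact h1
    have h2' : a * T.D < T.α g * P + T.H * P + T.e g * P := by
      rw [← add_mul, ← add_mul]; exact h2
    have hbr : ¬ a * T.D < (T.α g + T.H) * P := by
      rw [add_mul]; omega
    have haP : a < P := by
      by_contra hc
      have hc' : P ≤ a := by omega
      have : P * T.D ≤ a * T.D := Nat.mul_le_mul_right _ hc'
      have h3 : (T.α g + T.H + T.e g) * P ≤ (2 * T.H) * P := Nat.mul_le_mul_right _ htop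
      have h4 : (2 * T.H) * P = P * T.D := by rw [hDH]; ring
      rw [h4] at h3
      rw [← add_mul, ← add_mul] at h2'
      omega
    have hDHP : T.D * P = 2 * (T.H * P) := by rw [hDH]; ring
    have ht : T.tval g P a = 2 * P + 2 * L - 2 * a := by
      unfold Tbl.tval
      rw [if_neg hbr]
    rw [ht]
    have e1 : 2 * P + 2 * L - 2 * a + 2 * a = 2 * P + 2 * L := by omega
    have e2 : T.D * (2 * P + 2 * L - 2 * a + 2 * a) = T.D * (2 * P + 2 * L) := by rw [e1]
    refine ⟨by omega, ?_, ?_⟩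
    · by_contra hc
      have hc' : P + 2 ≤ 2 * P + 2 * L - 2 * a := by omega
      have := Nat.mul_le_mul_left T.D hc'
      nlinarith
    · nlinarith

/-- Same sheet: the fibre coordinate is larger than two. -/
theorem t_gt_two (hT : T.Valid) {s : Bool} {g P a : ℕ} (hg : g < T.N) (hP : T.D ≤ P)
    (h : T.Mem s g P a) : 2 < T.tval g P a := by
  obtain ⟨_, _, h3⟩ := t_bounds hT hg hP h
  have hD := D_pos hT
  have hDH : T.D = 2 * T.H := rfl
  have hwe := hT.hwe g hg
  have hw : 2 * (if s then T.e g else T.w g) + 2 ≤ T.D := by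
    cases s <;> simp <;> omega
  have h4 : (2 * (if s then T.e g else T.w g) + 2) * P ≤ T.D * P := Nat.mul_le_mul_right _ hw
  by_contra hc
  have hc' : T.tval g P a ≤ 2 := by omega
  have := Nat.mul_le_mul_left T.D hc'
  nlinarith

/-- Mixed sheets: the sum of the fibre coordinates is larger than `P + 2`. -/
theorem t_mixed (hT : T.Valid) {g P a b : ℕ} (hg : g < T.N) (hP : T.D ≤ P)
    (ha : T.Mem false g P a) (hb : T.Mem true g P b) : P + 2 < T.tval g P a + T.tval g P b := by
  obtain ⟨_, _, h3⟩ := t_bounds hT hg hP ha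
  obtain ⟨_, _, h4⟩ := t_bounds hT hg hP hb
  simp only [Bool.false_eq_true, if_false, if_true] at h3 h4
  have hD := D_pos hT
  have hDH : T.D = 2 * T.H := rfl
  have hwe := hT.hwe g hg
  have h5 : (2 * (T.w g + T.e g) + 2) * P ≤ T.D * P := Nat.mul_le_mul_right _ (by omega)
  by_contra hc
  have hc' : T.tval g P a + T.tval g P b ≤ P + 2 := by omega
  have := Nat.mul_le_mul_left T.D hc'
  nlinarith

/-- The defining inequalities of the block of a row. -/
theorem blk_spec (T : Tbl) {p : ℕ} (hp : 0 < p) (i : ℕ) :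
    T.blk p i * p ≤ i * T.N ∧ i * T.N < (T.blk p i + 1) * p := by
  unfold Tbl.blk
  have e1 := Nat.div_add_mod (i * T.N) p
  have e2 := Nat.mod_lt (i * T.N) hp
  have e3 : (i * T.N / p) * p = p * (i * T.N / p) := mul_comm _ _
  constructor
  · omega
  · rw [add_mul, one_mul]; omega

theorem blk_lt (hT : T.Valid) {p i : ℕ} (hi : i < p) : T.blk p i < T.N := by
  unfold Tbl.blk
  apply Nat.div_lt_of_lt_mul
  exact Nat.mul_lt_mul_of_pos_right hi hT.hN

/-- Far-up triples are excluded by the table. -/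
theorem far_contra (hT : T.Valid) {p P i1 i2 i3 a1 a2 a3 : ℕ} {s1 s2 s3 : Bool} (hp : 0 < p)
    (hi1 : i1 < p) (hi2 : i2 < p) (hi3 : i3 < p)
    (hrow : i1 + i3 + p = 2 * i2)
    (h1 : T.Mem s1 (T.blk p i1) P a1) (h3 : T.Mem s3 (T.blk p i3) P a3)
    (h2 : T.Mem s2 (T.blk p i2) P a2) {k : ℕ} (hk : k ≤ 2)
    (hfib : a1 + a3 + P = 2 * a2 + k * P) : False := by
  set g1 := T.blk p i1 with hg1
  set g2 := T.blk p i2 with hg2
  set g3 := T.blk p i3 with hg3
  obtain ⟨r1, r1'⟩ := blk_spec T hp i1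
  obtain ⟨r2, r2'⟩ := blk_spec T hp i2
  obtain ⟨r3, r3'⟩ := blk_spec T hp i3
  rw [← hg1] at r1 r1'
  rw [← hg2] at r2 r2'
  rw [← hg3] at r3 r3'
  have hrowN : (i1 * T.N) + (i3 * T.N) + p * T.N = 2 * (i2 * T.N) := by
    have : (i1 + i3 + p) * T.N = (2 * i2) * T.N := by rw [hrow]
    linarith
  have c1 : g1 + g3 + T.N < 2 * g2 + 2 := by
    have : (g1 + g3 + T.N) * p < (2 * g2 + 2) * p := by linarith
    exact Nat.lt_of_mul_lt_mul_right this
  have c2 : 2 * g2 < g1 + g3 + T.N + 2 := by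
    have : (2 * g2) * p < (g1 + g3 + T.N + 2) * p := by linarith
    exact Nat.lt_of_mul_lt_mul_right this
  obtain ⟨m1, m1'⟩ := h1
  obtain ⟨m2, m2'⟩ := h2
  obtain ⟨m3, m3'⟩ := h3
  have ne1 : T.arcL s1 g1 < T.arcH s1 g1 :=
    Nat.lt_of_mul_lt_mul_right (lt_of_le_of_lt m1 m1')
  have ne2 : T.arcL s2 g2 < T.arcH s2 g2 :=
    Nat.lt_of_mul_lt_mul_right (lt_of_le_of_lt m2 m2')
  have ne3 : T.arcL s3 g3 < T.arcH s3 g3 :=
    Nat.lt_of_mul_lt_mul_right (lt_of_le_of_lt m3 m3')
  have hfibD : a1 * T.D + a3 * T.D + P * T.D = 2 * (a2 * T.D) + k * (P * T.D) := by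
    have : (a1 + a3 + P) * T.D = (2 * a2 + k * P) * T.D := by rw [hfib]
    linarith
  refine hT.far g1 (blk_lt hT hi1) g3 (blk_lt hT hi3) g2 (blk_lt hT hi2) c1 c2 s1 s3 s2 k hk
    ne1 ne3 ne2 ⟨?_, ?_⟩
  · have : (T.arcL s1 g1 + T.arcL s3 g3 + T.D) * P < (2 * T.arcH s2 g2 + k * T.D) * P := by
      linarith
    exact Nat.lt_of_mul_lt_mul_right this
  · have : (2 * T.arcL s2 g2 + k * T.D) * P < (T.arcH s1 g1 + T.arcH s3 g3 + T.D) * P := by
      linarith
    exact Nat.lt_of_mul_lt_mul_right this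

end Tbl

end Vale.Agent.Lib.P057
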