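import Mathlib
import Vale.Agent.Lib.P057.Pair

/-!
The potential of the block construction is strict on midpoint triples.
-/

namespace Vale.Agent.Lib.P057

open Finset

namespace Tbl

variable {T : Tbl}

theorem mem_K {p P : ℕ} [NeZero p] [NeZero P] {x : ZMod p × ZMod P} :
    x ∈ T.K p P ↔ T.InK p P x.1.val x.2.val := by
  classical
  unfold K
  simp only [Finset.mem_filter, Finset.mem_univ, true_and]

/-- Sign of the fibre coordinates in a single block. -/
theorem fibre_mid (hT : T.Valid) {g P a1 a2 a3 : ℕ} {s1 s2 s3 : Bool} (hg : g < T.N)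
    (hP : T.D ≤ P) (h1 : T.Mem s1 g P a1) (h2 : T.Mem s2 g P a2) (h3 : T.Mem s3 g P a3)
    (h : a1 + a3 = 2 * a2 ∨ a1 + a3 = 2 * a2 + P ∨ a1 + a3 + P = 2 * a2) :
    ∃ m : ℕ, T.tval g P a1 + T.tval g P a3 = 2 * T.tval g P a2 + m * P ∧
      (m = 0 → T.tval g P a1 = T.tval g P a3 → a1 = a3) := by
  have hPpos : 0 < P := lt_of_lt_of_le (D_pos hT) hP
  obtain ⟨e1, _, _⟩ := t_bounds hT hg hP h1
  obtain ⟨e2, b2, _⟩ := t_bounds hT hg hP h2
  obtain ⟨e3, _, _⟩ := t_bounds hT hg hP h3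
  have g1 := t_gt_two hT hg hP h1
  have g3 := t_gt_two hT hg hP h3
  have hmix : s1 ≠ s3 → P + 2 < T.tval g P a1 + T.tval g P a3 := by
    intro hne
    cases s1 <;> cases s3
    · exact absurd rfl hne
    · exact t_mixed hT hg hP h1 h3
    · have := t_mixed hT hg hP h3 h1
      omega
    · exact absurd rfl hne
  set t1 := T.tval g P a1
  set t2 := T.tval g P a2
  set t3 := T.tval g P a3
  set L := T.ceilD (T.α g * P)
  cases s1 <;> cases s3 <;> cases s2 <;> simp at e1 e2 e3 hmix <;> rcases h with h | h | h <;>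
    first
    | (exfalso; omega)
    | exact ⟨0, by omega, by omega⟩
    | exact ⟨1, by omega, by omega⟩
    | exact ⟨2, by omega, by omega⟩

/-- The row quadratic dominates the fibre quadratic when the gain is large. -/
theorem dominate {A p P : ℕ} {V : ℤ} {t1 t2 t3 : ℕ} (hp : 0 < p) (hPp : P ≤ 4 * p)
    (ht2 : t2 ≤ P + 1) (hV : 101 * (p : ℤ) ^ 2 ≤ 2 * (A * V)) :
    0 < (A : ℤ) * V + (t1 : ℤ) ^ 2 + (t3 : ℤ) ^ 2 - 2 * (t2 : ℤ) ^ 2 := by
  have h1 : (t2 : ℤ) ≤ 5 * p := by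
    have : t2 ≤ 5 * p := by omega
    exact_mod_cast this
  have h0 : (0 : ℤ) ≤ t2 := by positivity
  have hpz : (0 : ℤ) < p := by exact_mod_cast hp
  have h2 : (t2 : ℤ) ^ 2 ≤ (5 * p) ^ 2 := by gcongr
  have h3 : (0 : ℤ) ≤ (t1 : ℤ) ^ 2 := sq_nonneg _
  have h4 : (0 : ℤ) ≤ (t3 : ℤ) ^ 2 := sq_nonneg _
  have h5 : (0 : ℤ) < (p : ℤ) ^ 2 := by positivity
  nlinarith

/-- Gain from the gap between different blocks. -/
theorem gap_gain (hT : T.Valid) {A p i1 i3 : ℕ} (hp : 0 < p)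
    (hA : 101 * (T.N * T.G) ^ 2 ≤ A) (hok : T.RowOK p i1)
    (hlt : T.blk p i1 < T.blk p i3) :
    101 * (p : ℤ) ^ 2 ≤ (A : ℤ) * ((i1 : ℤ) - i3) ^ 2 := by
  have hG := hT.hG
  have hN := hT.hN
  obtain ⟨r1, r1'⟩ := blk_spec T hp i1
  obtain ⟨r3, r3'⟩ := blk_spec T hp i3
  have hok' : T.G * (i1 * T.N % p) < (T.G - 1) * p := hok
  have hr : i1 * T.N = T.blk p i1 * p + i1 * T.N % p := by
    unfold Tbl.blk
    have := Nat.div_add_mod (i1 * T.N) p
    rw [mul_comm (i1 * T.N / p) p]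
    omega
  set g1 := T.blk p i1
  set g3 := T.blk p i3
  set r := i1 * T.N % p
  have h1 : (g1 + 1) * p ≤ g3 * p := Nat.mul_le_mul_right _ hlt
  have key : (p : ℤ) ≤ (T.N * T.G : ℤ) * ((i3 : ℤ) - i1) := by
    have z1 : ((i1 : ℤ) * T.N) = g1 * p + r := by exact_mod_cast hr
    have z2 : ((g3 : ℤ) * p) ≤ i3 * T.N := by exact_mod_cast r3
    have z3 : (((g1 : ℤ) + 1) * p) ≤ g3 * p := by exact_mod_cast h1
    have z4 : (T.G : ℤ) * r < (T.G - 1) * p := by
      have : ((T.G - 1 : ℕ) : ℤ) = (T.G : ℤ) - 1 := by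
        rw [Nat.cast_sub (by omega)]; simp
      rw [← this]
      exact_mod_cast hok'
    have z5 : (0 : ℤ) ≤ T.G := by positivity
    have z6 : (T.G : ℤ) * (((g1 : ℤ) + 1) * p) ≤ T.G * (i3 * T.N) := by
      apply mul_le_mul_of_nonneg_left _ z5
      linarith
    have : (T.N * T.G : ℤ) * ((i3 : ℤ) - i1) = T.G * (i3 * T.N) - T.G * (i1 * T.N) := by ring
    rw [this, z1]
    nlinarith
  have hp' : (0 : ℤ) ≤ p := by positivity
  have sq : (p : ℤ) ^ 2 ≤ ((T.N * T.G : ℤ) * ((i3 : ℤ) - i1)) ^ 2 := by gcongr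
  have hA' : (101 : ℤ) * ((T.N * T.G : ℤ)) ^ 2 ≤ A := by exact_mod_cast hA
  have hd : (0 : ℤ) ≤ ((i1 : ℤ) - i3) ^ 2 := sq_nonneg _
  have e : ((T.N * T.G : ℤ) * ((i3 : ℤ) - i1)) ^ 2 = ((T.N * T.G : ℤ)) ^ 2 * ((i1 : ℤ) - i3) ^ 2 := by
    ring
  have := mul_le_mul_of_nonneg_right hA' hd
  nlinarith

/-- The main property of the block construction. -/
theorem good_K (hT : T.Valid) {p P A : ℕ} [NeZero p] [NeZero P] (hpodd : Odd p) (hPodd : Odd P)
    (hDP : T.D ≤ P) (hPp : P ≤ 4 * p) (hA : 101 * (T.N * T.G) ^ 2 ≤ A) :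
    GoodSet (T.K p P) (T.potential A p P) := by
  intro x hx y hy z hz hxz hne
  have hp : 0 < p := Nat.pos_of_ne_zero (NeZero.ne p)
  have hP : 0 < P := Nat.pos_of_ne_zero (NeZero.ne P)
  rw [mem_K] at hx hy hz
  obtain ⟨okx, hx⟩ := hx
  obtain ⟨_, hy⟩ := hy
  obtain ⟨okz, hz⟩ := hz
  obtain ⟨s1, hx⟩ : ∃ s, T.Mem s (T.blk p x.1.val) P x.2.val := by
    rcases hx with h | h
    · exact ⟨false, h⟩
    · exact ⟨true, h⟩
  obtain ⟨s2, hy⟩ : ∃ s, T.Mem s (T.blk p y.1.val) P y.2.val := by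
    rcases hy with h | h
    · exact ⟨false, h⟩
    · exact ⟨true, h⟩
  obtain ⟨s3, hz⟩ : ∃ s, T.Mem s (T.blk p z.1.val) P z.2.val := by
    rcases hz with h | h
    · exact ⟨false, h⟩
    · exact ⟨true, h⟩
  have e1 : x.1 + z.1 = y.1 + y.1 := by simpa using congrArg Prod.fst hxz
  have e2 : x.2 + z.2 = y.2 + y.2 := by simpa using congrArg Prod.snd hxz
  have hrow := zmod_mid_cases x.1 z.1 y.1 e1
  have hfib := zmod_mid_cases x.2 z.2 y.2 e2
  have hi1 := ZMod.val_lt x.1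
  have hi2 := ZMod.val_lt y.1
  have hi3 := ZMod.val_lt z.1
  have hg1 := blk_lt hT hi1
  have hg2 := blk_lt hT hi2
  have hg3 := blk_lt hT hi3
  obtain ⟨_, b2, _⟩ := t_bounds hT hg2 hDP hy
  set i1 := x.1.val with hi1def
  set i2 := y.1.val with hi2def
  set i3 := z.1.val with hi3def
  set a1 := x.2.val with ha1def
  set a2 := y.2.val with ha2def
  set a3 := z.2.val with ha3def
  have goal_of : 0 < (A : ℤ) * ((i1 : ℤ) ^ 2 + (i3 : ℤ) ^ 2 - 2 * (i2 : ℤ) ^ 2) +
      (T.tval (T.blk p i1) P a1 : ℤ) ^ 2 + (T.tval (T.blk p i3) P a3 : ℤ) ^ 2 -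
      2 * (T.tval (T.blk p i2) P a2 : ℤ) ^ 2 →
      2 * T.potential A p P y < T.potential A p P x + T.potential A p P z := by
    intro h
    simp only [potential, ← hi1def, ← hi2def, ← hi3def, ← ha1def, ← ha2def, ← ha3def]
    zify
    linarith
  apply goal_of
  rcases hrow with hrow | hrow | hrow
  · -- near rows
    have hz1 : (i1 : ℤ) + i3 = 2 * i2 := by exact_mod_cast hrow
    have hnear := near_gain i1 i2 i3 hz1
    rcases lt_trichotomy (T.blk p i1) (T.blk p i3) with hlt | heq | hgt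
    · apply dominate hp hPp b2
      have := gap_gain hT hp hA okx hlt
      rw [hnear] at this
      linarith
    · -- same block
      obtain ⟨r1, r1'⟩ := blk_spec T hp i1
      obtain ⟨r2, r2'⟩ := blk_spec T hp i2
      obtain ⟨r3, r3'⟩ := blk_spec T hp i3
      rw [← heq] at r3 r3' hz hg3
      have hblk2 : T.blk p i2 = T.blk p i1 := by
        have hrowN : i1 * T.N + i3 * T.N = 2 * (i2 * T.N) := by
          have : (i1 + i3) * T.N = (2 * i2) * T.N := by rw [hrow]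
          linarith
        have c1 : T.blk p i1 * p ≤ i2 * T.N := by omega
        have c2 : i2 * T.N < (T.blk p i1 + 1) * p := by omega
        have : T.blk p i2 ≤ T.blk p i1 := by
          have : T.blk p i2 * p < (T.blk p i1 + 1) * p := lt_of_le_of_lt r2 c2
          have := Nat.lt_of_mul_lt_mul_right this
          omega
        have : T.blk p i1 ≤ T.blk p i2 := by
          have : T.blk p i1 * p < (T.blk p i2 + 1) * p := lt_of_le_of_lt c1 r2'
          have := Nat.lt_of_mul_lt_mul_right this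
          omega
        omega
      rw [hblk2] at hy hg2 ⊢
      rw [← heq]
      obtain ⟨m, hm, hm0⟩ := fibre_mid hT hg1 hDP hx hy hz hfib
      set t1 := T.tval (T.blk p i1) P a1
      set t2 := T.tval (T.blk p i1) P a2
      set t3 := T.tval (T.blk p i1) P a3
      have hmz : (t1 : ℤ) + t3 = 2 * t2 + (m : ℤ) * P := by exact_mod_cast hm
      have hPz : (0 : ℤ) < P := by exact_mod_cast hP
      have ht2z : (0 : ℤ) ≤ t2 := by positivity
      have hmz0 : (0 : ℤ) ≤ m := by positivity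
      obtain ⟨f1, f2⟩ := fiber_value t1 t2 t3 P m hPz ht2z hmz hmz0
      have hA0 : (0 : ℤ) ≤ A := by positivity
      have hVi : 0 ≤ ((i1 : ℤ) ^ 2 + (i3 : ℤ) ^ 2 - 2 * (i2 : ℤ) ^ 2) := by
        have : (0 : ℤ) ≤ ((i1 : ℤ) - i3) ^ 2 := sq_nonneg _
        linarith
      by_contra hcontra
      have hAG : 0 < A := by
        have h1 : 0 < 101 * (T.N * T.G) ^ 2 := by
          have := hT.hN
          have := hT.hG
          positivity
        omega
      have hAz : (0 : ℤ) < A := by exact_mod_cast hAG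
      have hnn := mul_nonneg hA0 hVi
      have hVt0 : (t1 : ℤ) ^ 2 + t3 ^ 2 - 2 * t2 ^ 2 = 0 := by linarith
      have hAV0 : (A : ℤ) * ((i1 : ℤ) ^ 2 + (i3 : ℤ) ^ 2 - 2 * (i2 : ℤ) ^ 2) = 0 := by linarith
      have hVi0 : ((i1 : ℤ) ^ 2 + (i3 : ℤ) ^ 2 - 2 * (i2 : ℤ) ^ 2) = 0 := by
        rcases mul_eq_zero.1 hAV0 with h | h
        · exact absurd h hAz.ne'
        · exact h
      obtain ⟨hm00, ht13⟩ := f2 hVt0
      have hm0' : m = 0 := by exact_mod_cast hm00
      have ht13' : t1 = t3 := by exact_mod_cast ht13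
      have ha13 : a1 = a3 := hm0 hm0' ht13'
      have hi13z : (i1 : ℤ) = i3 := by
        rw [hVi0] at hnear
        have : ((i1 : ℤ) - i3) ^ 2 = 0 := by rw [hnear]; ring
        have : (i1 : ℤ) - i3 = 0 := by simpa using this
        linarith
      have hi13 : i1 = i3 := by exact_mod_cast hi13z
      have hxz1 : x.1 = z.1 := ZMod.val_injective p hi13
      have hxz2 : x.2 = z.2 := ZMod.val_injective P ha13
      have hxz' : x = z := Prod.ext hxz1 hxz2
      have hxy1 : x.1 = y.1 := zmod_double_inj hpodd _ _ (by rw [← e1, ← hxz1])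
      have hxy2 : x.2 = y.2 := zmod_double_inj hPodd _ _ (by rw [← e2, ← hxz2])
      exact hne (Prod.ext hxy1 hxy2)
    · apply dominate hp hPp b2
      have := gap_gain hT hp hA okz hgt
      have e : ((i3 : ℤ) - i1) ^ 2 = ((i1 : ℤ) - i3) ^ 2 := by ring
      rw [e, hnear] at this
      linarith
  · -- far down
    apply dominate hp hPp b2
    have hz1 : (i1 : ℤ) + i3 = 2 * i2 + p := by exact_mod_cast hrow
    have h := far_down_gain i1 i2 i3 p hz1 (by positivity) (by positivity)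
    have hA1 : 101 ≤ A := by
      have h1 : 1 ≤ (T.N * T.G) ^ 2 := by
        have := hT.hN
        have := hT.hG
        exact Nat.one_le_pow _ _ (by positivity)
      omega
    have hA1z : (101 : ℤ) ≤ A := by exact_mod_cast hA1
    have hp2 : (0 : ℤ) ≤ (p : ℤ) ^ 2 := sq_nonneg _
    nlinarith
  · -- far up
    exfalso
    have hk : ∃ k : ℕ, k ≤ 2 ∧ a1 + a3 + P = 2 * a2 + k * P := by
      rcases hfib with h | h | h
      · exact ⟨1, by omega, by omega⟩
      · exact ⟨2, by omega, by omega⟩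
      · exact ⟨0, by omega, by omega⟩
    obtain ⟨k, hk, hfib'⟩ := hk
    exact far_contra hT hp hi1 hi2 hi3 hrow hx hz hy hk hfib'

end Tbl

end Vale.Agent.Lib.P057
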