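import Mathlib
import Vale.Agent.Lib.P057.PairGood

/-!
Size of the block construction, and the certificate for a pair of primes.
-/

namespace Vale.Agent.Lib.P057

open Finset

/-- Counting multiples of `c` in an interval. -/
theorem card_between {c u v M : ℕ} (hc : 0 < c) (hM : v ≤ M * c) :
    v ≤ u + c * ((range M).filter (fun i => u ≤ i * c ∧ i * c < v)).card + c := by
  set a := (u + c - 1) / c with ha
  set b := (v + c - 1) / c with hb
  have ha1 : u ≤ a * c := by
    have h1 := Nat.div_add_mod (u + c - 1) c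
    have h2 := Nat.mod_lt (u + c - 1) hc
    have h3 : c * ((u + c - 1) / c) = a * c := by rw [ha, mul_comm]
    omega
  have ha2 : a * c < u + c := by
    have h1 := Nat.div_add_mod (u + c - 1) c
    have h3 : c * ((u + c - 1) / c) = a * c := by rw [ha, mul_comm]
    omega
  have hb1 : v ≤ b * c := by
    have h1 := Nat.div_add_mod (v + c - 1) c
    have h2 := Nat.mod_lt (v + c - 1) hc
    have h3 : c * ((v + c - 1) / c) = b * c := by rw [hb, mul_comm]
    omega
  have hb2 : b * c < v + c := by
    have h1 := Nat.div_add_mod (v + c - 1) c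
    have h3 : c * ((v + c - 1) / c) = b * c := by rw [hb, mul_comm]
    omega
  have hsub : Ico a b ⊆ (range M).filter (fun i => u ≤ i * c ∧ i * c < v) := by
    intro i hi
    rw [mem_Ico] at hi
    have h1 : a * c ≤ i * c := Nat.mul_le_mul_right _ hi.1
    have h2 : (i + 1) * c ≤ b * c := Nat.mul_le_mul_right _ hi.2
    rw [add_mul, one_mul] at h2
    have h3 : i * c < v := by omega
    rw [mem_filter, mem_range]
    refine ⟨?_, by omega, h3⟩
    have : i * c < M * c := by omega
    exact Nat.lt_of_mul_lt_mul_right this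
  have hcard := card_le_card hsub
  rw [Nat.card_Ico] at hcard
  set C := ((range M).filter (fun i => u ≤ i * c ∧ i * c < v)).card
  have h4 : (b - a) * c ≤ C * c := Nat.mul_le_mul_right _ hcard
  rw [Nat.sub_mul] at h4
  have h5 : c * C = C * c := mul_comm _ _
  omega

namespace Tbl

variable {T : Tbl}

open Classical in
/-- Rows of block `g`, on the natural numbers. -/
noncomputable def rows (T : Tbl) (p g : ℕ) : Finset ℕ :=
  (range p).filter (fun i => T.blk p i = g ∧ T.RowOK p i)

open Classical in
/-- Fibre residues of block `g`, on the natural numbers. -/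
noncomputable def fib (T : Tbl) (P g : ℕ) : Finset ℕ :=
  (range P).filter (fun a => T.Mem false g P a ∨ T.Mem true g P a)

theorem rows_card (hT : T.Valid) {p g : ℕ} (hg : g < T.N) (hp : T.G * T.N ≤ p) :
    (T.G - 2) * p ≤ T.G * T.N * (T.rows p g).card := by
  classical
  have hG := hT.hG
  have hN := hT.hN
  have hc : 0 < T.G * T.N := by positivity
  have hp0 : 0 < p := lt_of_lt_of_le hc hp
  set u := T.G * g * p with hu
  set v := (T.G * g + T.G - 1) * p with hv
  have hM : v ≤ p * (T.G * T.N) := by
    rw [hv, mul_comm p]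
    apply Nat.mul_le_mul_right
    have : T.G * (g + 1) ≤ T.G * T.N := Nat.mul_le_mul_left _ hg
    rw [mul_add, mul_one] at this
    omega
  have h := card_between (u := u) hc hM
  have hsub : ((range p).filter (fun i => u ≤ i * (T.G * T.N) ∧ i * (T.G * T.N) < v)) ⊆
      T.rows p g := by
    intro i hi
    rw [mem_filter] at hi
    obtain ⟨hi0, hi1, hi2⟩ := hi
    have e : i * (T.G * T.N) = T.G * (i * T.N) := by ring
    rw [e] at hi1 hi2
    have h1 : g * p ≤ i * T.N := by
      have : T.G * (g * p) ≤ T.G * (i * T.N) := by rw [hu] at hi1; linarith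
      exact Nat.le_of_mul_le_mul_left this (by omega)
    have hG1 : T.G * (g + 1) * p = T.G * g * p + T.G * p := by ring
    have hv' : v + p = (T.G * g + T.G) * p := by
      rw [hv, ← Nat.succ_mul]
      congr 1
      omega
    have h2 : i * T.N < (g + 1) * p := by
      have : T.G * (i * T.N) < T.G * ((g + 1) * p) := by
        have e2 : T.G * ((g + 1) * p) = (T.G * g + T.G) * p := by ring
        rw [e2]
        omega
      exact Nat.lt_of_mul_lt_mul_left this
    have hb : T.blk p i = g := by
      unfold Tbl.blk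
      exact Nat.div_eq_of_lt_le h1 h2
    have hmod : i * T.N % p = i * T.N - g * p := by
      have e1 := Nat.div_add_mod (i * T.N) p
      have : i * T.N / p = g := hb
      rw [this, mul_comm p g] at e1
      omega
    have hok : T.RowOK p i := by
      unfold Tbl.RowOK
      rw [hmod, Nat.mul_sub]
      have e3 : T.G * (g * p) = u := by rw [hu]; ring
      rw [e3]
      have e4 : v = u + (T.G - 1) * p := by
        rw [hv, hu, ← add_mul]
        congr 1
        omega
      omega
    rw [Tbl.rows, mem_filter]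
    exact ⟨hi0, hb, hok⟩
  have hcard := card_le_card hsub
  have hcard' := Nat.mul_le_mul_left (T.G * T.N) hcard
  have e5 : v = u + (T.G - 1) * p := by
    rw [hv, hu, ← add_mul]
    congr 1
    omega
  have e6 : (T.G - 1) * p = (T.G - 2) * p + p := by
    rw [← Nat.succ_mul]
    congr 1
    omega
  omega

theorem fib_card (hT : T.Valid) {P g : ℕ} (hg : g < T.N) :
    (T.w g + T.e g) * P ≤ T.D * (T.fib P g).card + 2 * T.D := by
  classical
  have hD := D_pos hT
  have hwe := hT.hwe g hg
  have htop := hT.htop g hg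
  have hDH : T.D = 2 * T.H := rfl
  have h1 := card_between (c := T.D) (u := T.α g * P) (v := (T.α g + T.w g) * P) (M := P) hD
    (by rw [mul_comm P]; exact Nat.mul_le_mul_right _ (by omega))
  have h2 := card_between (c := T.D) (u := (T.α g + T.H) * P) (v := (T.α g + T.H + T.e g) * P)
    (M := P) hD (by rw [mul_comm P]; exact Nat.mul_le_mul_right _ (by omega))
  set F := (range P).filter (fun a => T.α g * P ≤ a * T.D ∧ a * T.D < (T.α g + T.w g) * P) with hF
  set E := (range P).filter
    (fun a => (T.α g + T.H) * P ≤ a * T.D ∧ a * T.D < (T.α g + T.H + T.e g) * P) with hE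
  have hdisj : Disjoint F E := by
    rw [Finset.disjoint_left]
    intro a ha hb
    rw [hF, mem_filter] at ha
    rw [hE, mem_filter] at hb
    have h3 : (T.α g + T.w g) * P ≤ (T.α g + T.H) * P := Nat.mul_le_mul_right _ (by omega)
    omega
  have hsub : F ∪ E ⊆ T.fib P g := by
    intro a ha
    rw [mem_union] at ha
    rw [Tbl.fib, mem_filter]
    rcases ha with ha | ha
    · rw [hF, mem_filter] at ha
      refine ⟨ha.1, Or.inl ?_⟩
      simpa [Mem, arcL, arcH] using ha.2
    · rw [hE, mem_filter] at ha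
      refine ⟨ha.1, Or.inr ?_⟩
      simpa [Mem, arcL, arcH] using ha.2
  have hcard := card_le_card hsub
  rw [card_union_of_disjoint hdisj] at hcard
  have h3 := Nat.mul_le_mul_left T.D hcard
  rw [mul_add] at h3
  have e1 : (T.α g + T.w g) * P = T.α g * P + T.w g * P := by ring
  have e2 : (T.α g + T.H + T.e g) * P = (T.α g + T.H) * P + T.e g * P := by ring
  have e3 : (T.w g + T.e g) * P = T.w g * P + T.e g * P := by ring
  rw [e3]
  omega

theorem sum_le_card_K {p P : ℕ} [NeZero p] [NeZero P] :
    ∑ g ∈ range T.N, (T.rows p g).card * (T.fib P g).card ≤ (T.K p P).card := by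
  classical
  have hdisj : ∀ g ∈ range T.N, ∀ g' ∈ range T.N, g ≠ g' →
      Disjoint (T.rows p g ×ˢ T.fib P g) (T.rows p g' ×ˢ T.fib P g') := by
    intro g _ g' _ hne
    rw [Finset.disjoint_left]
    intro x hx hx'
    rw [mem_product, Tbl.rows, mem_filter] at hx hx'
    exact hne (hx.1.2.1.symm.trans hx'.1.2.1)
  have e : ∑ g ∈ range T.N, (T.rows p g).card * (T.fib P g).card =
      ((range T.N).biUnion fun g => T.rows p g ×ˢ T.fib P g).card := by
    rw [card_biUnion hdisj]
    simp [card_product]
  rw [e]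
  refine card_le_card_of_injOn (fun x => ((x.1 : ZMod p), (x.2 : ZMod P))) ?_ ?_
  · intro x hx
    simp only [coe_biUnion, Set.mem_iUnion, mem_coe, mem_range, exists_prop, mem_product] at hx
    obtain ⟨g, hg, hx1, hx2⟩ := hx
    rw [Tbl.rows, mem_filter, mem_range] at hx1
    rw [Tbl.fib, mem_filter, mem_range] at hx2
    simp only [mem_coe, mem_K]
    show T.InK p P (x.1 : ZMod p).val (x.2 : ZMod P).val
    rw [ZMod.val_natCast_of_lt hx1.1, ZMod.val_natCast_of_lt hx2.1]
    refine ⟨hx1.2.2, ?_⟩
    rw [hx1.2.1]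
    exact hx2.2
  · intro x hx y hy hxy
    simp only [coe_biUnion, Set.mem_iUnion, mem_coe, mem_range, exists_prop, mem_product] at hx hy
    obtain ⟨g, hg, hx1, hx2⟩ := hx
    obtain ⟨g', hg', hy1, hy2⟩ := hy
    rw [Tbl.rows, mem_filter, mem_range] at hx1 hy1
    rw [Tbl.fib, mem_filter, mem_range] at hx2 hy2
    simp only [Prod.mk.injEq] at hxy
    have h1 := congrArg ZMod.val hxy.1
    have h2 := congrArg ZMod.val hxy.2
    rw [ZMod.val_natCast_of_lt hx1.1, ZMod.val_natCast_of_lt hy1.1] at h1
    rw [ZMod.val_natCast_of_lt hx2.1, ZMod.val_natCast_of_lt hy2.1] at h2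
    exact Prod.ext h1 h2

/-- The sum of the arc lengths of the table. -/
def S (T : Tbl) : ℕ := ∑ g ∈ range T.N, (T.w g + T.e g)

/-- The lower bound for the size of the construction. -/
theorem card_K_bound (hT : T.Valid) {p P : ℕ} [NeZero p] [NeZero P] (hp : T.G * T.N ≤ p) :
    (T.G - 2) * p * (T.S * P) ≤ T.G * T.N * T.D * (T.K p P).card + 2 * T.N * ((T.G - 2) * p * T.D) := by
  have h0 := sum_le_card_K (T := T) (p := p) (P := P)
  have h1 : ∀ g ∈ range T.N, (T.G - 2) * p * ((T.w g + T.e g) * P) ≤
      T.G * T.N * T.D * ((T.rows p g).card * (T.fib P g).card) + 2 * ((T.G - 2) * p * T.D) := by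
    intro g hg
    have hg' := mem_range.1 hg
    have a := rows_card hT hg' hp
    have b := fib_card hT (P := P) hg'
    calc (T.G - 2) * p * ((T.w g + T.e g) * P)
        ≤ (T.G - 2) * p * (T.D * (T.fib P g).card + 2 * T.D) := Nat.mul_le_mul_left _ b
      _ = (T.G - 2) * p * (T.D * (T.fib P g).card) + 2 * ((T.G - 2) * p * T.D) := by ring
      _ ≤ (T.G * T.N * (T.rows p g).card) * (T.D * (T.fib P g).card)
            + 2 * ((T.G - 2) * p * T.D) := by gcongr
      _ = T.G * T.N * T.D * ((T.rows p g).card * (T.fib P g).card)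
            + 2 * ((T.G - 2) * p * T.D) := by ring
  have h2 := sum_le_sum h1
  have e1 : ∑ g ∈ range T.N, (T.G - 2) * p * ((T.w g + T.e g) * P) = (T.G - 2) * p * (T.S * P) := by
    rw [Tbl.S, sum_mul, mul_sum]
  rw [e1, sum_add_distrib, ← mul_sum] at h2
  simp only [sum_const, card_range, smul_eq_mul] at h2
  calc (T.G - 2) * p * (T.S * P)
      ≤ T.G * T.N * T.D * ∑ g ∈ range T.N, (T.rows p g).card * (T.fib P g).card +
          T.N * (2 * ((T.G - 2) * p * T.D)) := h2
    _ ≤ T.G * T.N * T.D * (T.K p P).card + T.N * (2 * ((T.G - 2) * p * T.D)) := by gcongr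
    _ = _ := by ring

/-- Certificate for a pair of odd moduli. -/
theorem pair_cert (hT : T.Valid) {cNum cDen : ℕ}
    (hS : cNum * (T.G * T.N * T.D) < cDen * (T.G - 2) * T.S)
    {p P A : ℕ} [NeZero p] [NeZero P] (hpodd : Odd p) (hPodd : Odd P)
    (hp : T.G * T.N ≤ p) (hDP : T.D ≤ P) (hPp : P ≤ 4 * p)
    (hPlarge : 2 * cDen * T.N * (T.G - 2) * T.D ≤ P)
    (hA : 101 * (T.N * T.G) ^ 2 ≤ A) :
    ∃ K : Finset (ZMod p × ZMod P), ∃ f : ZMod p × ZMod P → ℕ,
      GoodSet K f ∧ cNum * (p * P) ≤ cDen * K.card ∧ ∀ x ∈ K, f x ≤ A * p ^ 2 + (P + 1) ^ 2 := by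
  refine ⟨T.K p P, T.potential A p P, good_K hT hpodd hPodd hDP hPp hA, ?_, ?_⟩
  · have h := card_K_bound hT (P := P) hp
    have hpos : 0 < T.G * T.N * T.D := by
      have := hT.hG
      have := hT.hN
      have := D_pos hT
      positivity
    set c := T.G * T.N * T.D with hc
    set k := (T.K p P).card
    -- multiply out
    have h1 : (cNum * c + 1) * (p * P) ≤ cDen * (T.G - 2) * T.S * (p * P) :=
      Nat.mul_le_mul_right _ hS
    have h2 : cDen * (T.G - 2) * T.S * (p * P) = cDen * ((T.G - 2) * p * (T.S * P)) := by ring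
    have h3 : cDen * (2 * T.N * ((T.G - 2) * p * T.D)) = (2 * cDen * T.N * (T.G - 2) * T.D) * p := by
      ring
    have h4 : (2 * cDen * T.N * (T.G - 2) * T.D) * p ≤ P * p := Nat.mul_le_mul_right _ hPlarge
    have h5 : (cNum * c + 1) * (p * P) = cNum * c * (p * P) + P * p := by ring
    have h6 : cNum * c * (p * P) ≤ cDen * c * k := by
      have h7 := Nat.mul_le_mul_left cDen h
      rw [mul_add, h3] at h7
      rw [h2] at h1
      rw [h5] at h1
      have e : cDen * (c * k) = cDen * c * k := by ring
      omega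
    have h8 : c * (cNum * (p * P)) ≤ c * (cDen * k) := by
      calc c * (cNum * (p * P)) = cNum * c * (p * P) := by ring
        _ ≤ cDen * c * k := h6
        _ = c * (cDen * k) := by ring
    exact Nat.le_of_mul_le_mul_left h8 hpos
  · intro x hx
    rw [mem_K] at hx
    obtain ⟨_, hx⟩ := hx
    have hi := ZMod.val_lt x.1
    have hg := blk_lt hT hi
    have ht : T.tval (T.blk p x.1.val) P x.2.val ≤ P + 1 := by
      rcases hx with h | h
      · exact (t_bounds hT hg hDP h).2.1
      · exact (t_bounds hT hg hDP h).2.1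
    show A * x.1.val ^ 2 + (T.tval (T.blk p x.1.val) P x.2.val) ^ 2 ≤ A * p ^ 2 + (P + 1) ^ 2
    gcongr

end Tbl

end Vale.Agent.Lib.P057
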