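import Mathlib
import Vale.Agent.Lib.P057.PairCard

/-!
A Boolean check for block tables, evaluated by the kernel for a concrete table.
-/

namespace Vale.Agent.Lib.P057

namespace Tbl

/-- The three winding numbers, for a sum interval `[lx, hx)` and a double interval `[ly, hy)`. -/
def triOK (D lx hx ly hy : ℕ) : Bool :=
  (Nat.ble hy lx || Nat.ble hx ly) &&
    (Nat.ble (Nat.add hy D) lx || Nat.ble hx (Nat.add ly D)) &&
      (Nat.ble hx (Nat.add ly (Nat.add D D)) || Nat.ble (Nat.add hy (Nat.add D D)) lx)

/-- Both sheets of the middle block. -/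
def sideY (D H lx hx a2 w2 e2 : ℕ) : Bool :=
  (Nat.beq w2 0 || triOK D lx hx (Nat.add a2 a2) (Nat.add (Nat.add a2 a2) (Nat.add w2 w2))) &&
    (Nat.beq e2 0 || triOK D lx hx (Nat.add (Nat.add a2 a2) D)
      (Nat.add (Nat.add (Nat.add a2 a2) D) (Nat.add e2 e2)))

/-- Both sheets of the third block. -/
def sideZ (D H l1 h1 a3 w3 e3 a2 w2 e2 : ℕ) : Bool :=
  (Nat.beq w3 0 || sideY D H (Nat.add l1 a3) (Nat.add h1 (Nat.add a3 w3)) a2 w2 e2) &&
    (Nat.beq e3 0 || sideY D H (Nat.add l1 (Nat.add a3 H))
      (Nat.add h1 (Nat.add (Nat.add a3 H) e3)) a2 w2 e2)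

/-- Both sheets of the first block. -/
def sideX (D H a1 w1 e1 a3 w3 e3 a2 w2 e2 : ℕ) : Bool :=
  (Nat.beq w1 0 || sideZ D H (Nat.add a1 D) (Nat.add (Nat.add a1 w1) D) a3 w3 e3 a2 w2 e2) &&
    (Nat.beq e1 0 || sideZ D H (Nat.add (Nat.add a1 H) D) (Nat.add (Nat.add (Nat.add a1 H) e1) D)
      a3 w3 e3 a2 w2 e2)

/-- A far triple of blocks. -/
def farTriple (T : Tbl) (g1 g3 g2 : ℕ) : Bool :=
  !(Nat.blt g2 T.N) ||
    (Nat.beq (T.w g2) 0 && Nat.beq (T.e g2) 0) ||
    sideX (Nat.add T.H T.H) T.H (T.α g1) (T.w g1) (T.e g1) (T.α g3) (T.w g3) (T.e g3)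
      (T.α g2) (T.w g2) (T.e g2)

/-- All far triples with a given third block, using the symmetry between the first and the third
block. -/
def farRow (T : Tbl) (g3 : ℕ) : Bool :=
  (List.range (Nat.succ g3)).all fun g1 =>
    T.farTriple g1 g3 (Nat.div (Nat.add (Nat.add g1 g3) T.N) 2) &&
      T.farTriple g1 g3 (Nat.div (Nat.succ (Nat.add (Nat.add g1 g3) T.N)) 2)

/-- A range of third blocks, so that the kernel can work in pieces. -/
def farRange (T : Tbl) (lo len : ℕ) : Bool :=
  (List.range' lo len).all fun g3 => T.farRow g3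

theorem farRange_spec {T : Tbl} {lo len : ℕ} (h : T.farRange lo len = true) {g3 : ℕ}
    (h1 : lo ≤ g3) (h2 : g3 < lo + len) : T.farRow g3 = true := by
  simp only [farRange, List.all_eq_true, List.mem_range'_1] at h
  exact h g3 ⟨h1, h2⟩

/-- Sum of the arc lengths below `n`. -/
def sumTo (T : Tbl) : ℕ → ℕ
  | 0 => 0
  | n + 1 => sumTo T n + (T.w n + T.e n)

/-- The whole check, for a target density `cNum / cDen`. -/
def check (T : Tbl) (cNum cDen : ℕ) : Bool :=
  Nat.blt 0 T.N && Nat.blt 0 T.H && Nat.ble 2 T.G &&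
    (List.range T.N).all (fun g => Nat.ble (T.w g + T.e g + 1) T.H) &&
    (List.range T.N).all (fun g => Nat.ble (T.α g + T.H + T.e g) (2 * T.H)) &&
    Nat.blt (cNum * (T.G * T.N * T.D)) (cDen * (T.G - 2) * sumTo T T.N)

theorem sumTo_eq (T : Tbl) (n : ℕ) : sumTo T n = ∑ g ∈ Finset.range n, (T.w g + T.e g) := by
  induction n with
  | zero => simp [sumTo]
  | succ n ih => rw [Finset.sum_range_succ, sumTo, ih]

/-- What `triOK` says for one winding number. -/
theorem triOK_spec {D lx hx ly hy k : ℕ} (h : triOK D lx hx ly hy = true) (hk : k ≤ 2) :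
    ¬ (lx < hy + k * D ∧ ly + k * D < hx) := by
  simp only [triOK, Bool.and_eq_true, Bool.or_eq_true, Nat.ble_eq] at h
  obtain ⟨⟨h0, h1⟩, h2⟩ := h
  rintro ⟨c1, c2⟩
  have hk' : k = 0 ∨ k = 1 ∨ k = 2 := by omega
  have e1 : Nat.add hy D = hy + D := rfl
  have e2 : Nat.add ly D = ly + D := rfl
  have e3 : Nat.add ly (Nat.add D D) = ly + (D + D) := rfl
  have e4 : Nat.add hy (Nat.add D D) = hy + (D + D) := rfl
  rw [e1, e2] at h1
  rw [e3, e4] at h2
  rcases hk' with rfl | rfl | rfl <;> omega

/-- What the side checks say for arcs and winding numbers. -/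
theorem sideX_spec {T : Tbl} {g1 g3 g2 : ℕ}
    (h : sideX (Nat.add T.H T.H) T.H (T.α g1) (T.w g1) (T.e g1) (T.α g3) (T.w g3) (T.e g3)
      (T.α g2) (T.w g2) (T.e g2) = true)
    (s1 s3 s2 : Bool) {k : ℕ} (hk : k ≤ 2)
    (n1 : T.arcL s1 g1 < T.arcH s1 g1) (n3 : T.arcL s3 g3 < T.arcH s3 g3)
    (n2 : T.arcL s2 g2 < T.arcH s2 g2) :
    ¬ (T.arcL s1 g1 + T.arcL s3 g3 + T.D < 2 * T.arcH s2 g2 + k * T.D ∧
      2 * T.arcL s2 g2 + k * T.D < T.arcH s1 g1 + T.arcH s3 g3 + T.D) := by
  have hD : T.D = Nat.add T.H T.H := by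
    show 2 * T.H = T.H + T.H
    omega
  have nz (x : ℕ) : Nat.beq x 0 = true ↔ x = 0 := by
    rw [Nat.beq_eq]
  simp only [sideX, sideZ, sideY, Bool.and_eq_true, Bool.or_eq_true, nz] at h
  obtain ⟨hX0, hX1⟩ := h
  have key (lx hx ly hy : ℕ) (ht : triOK (Nat.add T.H T.H) lx hx ly hy = true)
      (e1 : lx = T.arcL s1 g1 + T.arcL s3 g3 + T.D) (e2 : hx = T.arcH s1 g1 + T.arcH s3 g3 + T.D)
      (e3 : ly = 2 * T.arcL s2 g2) (e4 : hy = 2 * T.arcH s2 g2) :
      ¬ (T.arcL s1 g1 + T.arcL s3 g3 + T.D < 2 * T.arcH s2 g2 + k * T.D ∧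
      2 * T.arcL s2 g2 + k * T.D < T.arcH s1 g1 + T.arcH s3 g3 + T.D) := by
    have := triOK_spec ht hk
    rw [← hD] at this
    rw [e1, e2, e3, e4] at this
    exact this
  have hDH : T.D = T.H + T.H := hD
  cases s1 <;> cases s3 <;> cases s2 <;>
    simp only [arcL, arcH, Bool.false_eq_true, if_false, if_true] at n1 n3 n2 key ⊢
  all_goals
    first
    | exact key _ _ _ _
        (by
          rcases hX0 with hb | hb
          · omega
          rcases hb.1 with hc | hc
          · omega
          rcases hc.1 with hd | hd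
          · omega
          exact hd)
        (by simp only [Nat.add_eq]; omega) (by simp only [Nat.add_eq]; omega)
        (by simp only [Nat.add_eq]; omega) (by simp only [Nat.add_eq]; omega)
    | exact key _ _ _ _
        (by
          rcases hX0 with hb | hb
          · omega
          rcases hb.1 with hc | hc
          · omega
          rcases hc.2 with hd | hd
          · omega
          exact hd)
        (by simp only [Nat.add_eq]; omega) (by simp only [Nat.add_eq]; omega)
        (by simp only [Nat.add_eq]; omega) (by simp only [Nat.add_eq]; omega)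
    | exact key _ _ _ _
        (by
          rcases hX0 with hb | hb
          · omega
          rcases hb.2 with hc | hc
          · omega
          rcases hc.1 with hd | hd
          · omega
          exact hd)
        (by simp only [Nat.add_eq]; omega) (by simp only [Nat.add_eq]; omega)
        (by simp only [Nat.add_eq]; omega) (by simp only [Nat.add_eq]; omega)
    | exact key _ _ _ _
        (by
          rcases hX0 with hb | hb
          · omega
          rcases hb.2 with hc | hc
          · omega
          rcases hc.2 with hd | hd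
          · omega
          exact hd)
        (by simp only [Nat.add_eq]; omega) (by simp only [Nat.add_eq]; omega)
        (by simp only [Nat.add_eq]; omega) (by simp only [Nat.add_eq]; omega)
    | exact key _ _ _ _
        (by
          rcases hX1 with hb | hb
          · omega
          rcases hb.1 with hc | hc
          · omega
          rcases hc.1 with hd | hd
          · omega
          exact hd)
        (by simp only [Nat.add_eq]; omega) (by simp only [Nat.add_eq]; omega)
        (by simp only [Nat.add_eq]; omega) (by simp only [Nat.add_eq]; omega)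
    | exact key _ _ _ _
        (by
          rcases hX1 with hb | hb
          · omega
          rcases hb.1 with hc | hc
          · omega
          rcases hc.2 with hd | hd
          · omega
          exact hd)
        (by simp only [Nat.add_eq]; omega) (by simp only [Nat.add_eq]; omega)
        (by simp only [Nat.add_eq]; omega) (by simp only [Nat.add_eq]; omega)
    | exact key _ _ _ _
        (by
          rcases hX1 with hb | hb
          · omega
          rcases hb.2 with hc | hc
          · omega
          rcases hc.1 with hd | hd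
          · omega
          exact hd)
        (by simp only [Nat.add_eq]; omega) (by simp only [Nat.add_eq]; omega)
        (by simp only [Nat.add_eq]; omega) (by simp only [Nat.add_eq]; omega)
    | exact key _ _ _ _
        (by
          rcases hX1 with hb | hb
          · omega
          rcases hb.2 with hc | hc
          · omega
          rcases hc.2 with hd | hd
          · omega
          exact hd)
        (by simp only [Nat.add_eq]; omega) (by simp only [Nat.add_eq]; omega)
        (by simp only [Nat.add_eq]; omega) (by simp only [Nat.add_eq]; omega)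

theorem valid_of_check {T : Tbl} {cNum cDen : ℕ} (h : T.check cNum cDen = true)
    (hfar : ∀ g3 < T.N, T.farRow g3 = true) :
    T.Valid ∧ cNum * (T.G * T.N * T.D) < cDen * (T.G - 2) * T.S := by
  simp only [check, Bool.and_eq_true, List.all_eq_true, List.mem_range, Nat.ble_eq, Nat.blt_eq]
    at h
  obtain ⟨⟨⟨⟨⟨h1, h2⟩, h3⟩, h4⟩, h5⟩, h7⟩ := h
  refine ⟨⟨h1, h2, h3, h4, h5, ?_⟩, ?_⟩
  · have hall : ∀ g3 < T.N, ∀ g1 < Nat.succ g3,
        T.farTriple g1 g3 (Nat.div (Nat.add (Nat.add g1 g3) T.N) 2) = true ∧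
          T.farTriple g1 g3 (Nat.div (Nat.succ (Nat.add (Nat.add g1 g3) T.N)) 2) = true := by
      intro g3 hg3 g1 hg1
      have := hfar g3 hg3
      simp only [farRow, List.all_eq_true, List.mem_range, Bool.and_eq_true] at this
      exact this g1 hg1
    have hordered : ∀ g1 g3 g2 : ℕ, g1 ≤ g3 → g3 < T.N → g2 < T.N →
        g1 + g3 + T.N < 2 * g2 + 2 → 2 * g2 < g1 + g3 + T.N + 2 →
        ∀ (s1 s3 s2 : Bool) (k : ℕ), k ≤ 2 →
          T.arcL s1 g1 < T.arcH s1 g1 → T.arcL s3 g3 < T.arcH s3 g3 →
          T.arcL s2 g2 < T.arcH s2 g2 →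
          ¬ (T.arcL s1 g1 + T.arcL s3 g3 + T.D < 2 * T.arcH s2 g2 + k * T.D ∧
            2 * T.arcL s2 g2 + k * T.D < T.arcH s1 g1 + T.arcH s3 g3 + T.D) := by
      intro g1 g3 g2 hle hg3 hg2 c1 c2 s1 s3 s2 k hk n1 n3 n2
      have htrip : T.farTriple g1 g3 g2 = true := by
        obtain ⟨a, b⟩ := hall g3 hg3 g1 (Nat.lt_succ_of_le hle)
        have e1 : Nat.div (Nat.add (Nat.add g1 g3) T.N) 2 = (g1 + g3 + T.N) / 2 := rfl
        have e2 : Nat.div (Nat.succ (Nat.add (Nat.add g1 g3) T.N)) 2 = (g1 + g3 + T.N + 1) / 2 :=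
          rfl
        rw [e1] at a
        rw [e2] at b
        have : g2 = (g1 + g3 + T.N) / 2 ∨ g2 = (g1 + g3 + T.N + 1) / 2 := by omega
        rcases this with e | e
        · rw [e]; exact a
        · rw [e]; exact b
      simp only [farTriple, Bool.or_eq_true, Bool.not_eq_true', Bool.and_eq_true] at htrip
      have hlt : Nat.blt g2 T.N = true := by
        rw [Nat.blt_eq]; exact hg2
      rcases htrip with (hf | hf) | hx
      · rw [hlt] at hf; exact absurd hf (by decide)
      · exfalso
        have a : T.w g2 = 0 := by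
          have := hf.1
          rwa [Nat.beq_eq] at this
        have b : T.e g2 = 0 := by
          have := hf.2
          rwa [Nat.beq_eq] at this
        cases s2
        · simp only [arcL, arcH, Bool.false_eq_true, if_false] at n2
          omega
        · simp only [arcL, arcH, if_true] at n2
          omega
      · exact sideX_spec hx s1 s3 s2 hk n1 n3 n2
    intro g1 hg1 g3 hg3 g2 hg2 c1 c2 s1 s3 s2 k hk n1 n3 n2 hcon
    by_cases hle : g1 ≤ g3
    · exact hordered g1 g3 g2 hle hg3 hg2 c1 c2 s1 s3 s2 k hk n1 n3 n2 hcon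
    · refine hordered g3 g1 g2 (by omega) hg1 hg2 (by omega) (by omega) s3 s1 s2 k hk n3 n1 n2
        ⟨?_, ?_⟩
      · have := hcon.1; omega
      · have := hcon.2; omega
  · rw [Tbl.S, ← sumTo_eq]
    exact h7

end Tbl

end Vale.Agent.Lib.P057
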