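import Mathlib

/-!
Many primes in `(X, 4 X]`, from the bounds of Chebyshev in Mathlib.
-/

namespace Vale.Agent.Lib.P057

open Finset Real

/-- The primes in `(X, 4 X]`. -/
def primesIn (X : ℕ) : Finset ℕ := (Ioc X (4 * X)).filter Nat.Prime

theorem theta_split (X : ℕ) :
    Chebyshev.theta ((4 * X : ℕ) : ℝ) =
      Chebyshev.theta (X : ℝ) + ∑ p ∈ primesIn X, Real.log p := by
  rw [Chebyshev.theta_eq_sum_Icc, Chebyshev.theta_eq_sum_Icc, Nat.floor_natCast, Nat.floor_natCast]
  have hd : Disjoint ((Icc 0 X).filter Nat.Prime) (primesIn X) := by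
    rw [Finset.disjoint_left]
    intro a ha hb
    simp only [primesIn, mem_filter, mem_Icc, mem_Ioc] at ha hb
    omega
  rw [← sum_union hd]
  apply sum_congr _ (fun _ _ => rfl)
  ext a
  simp only [primesIn, mem_filter, mem_Icc, mem_Ioc, mem_union]
  constructor
  · rintro ⟨h1, h2⟩
    by_cases h : a ≤ X
    · exact Or.inl ⟨⟨by omega, h⟩, h2⟩
    · exact Or.inr ⟨⟨by omega, h1.2⟩, h2⟩
  · rintro (⟨h1, h2⟩ | ⟨h1, h2⟩)
    · exact ⟨⟨by omega, by omega⟩, h2⟩
    · exact ⟨⟨by omega, h1.2⟩, h2⟩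

/-- For large `X` there are at least `√X` primes in `(X, 4 X]`. -/
theorem many_primes : ∃ X0 : ℕ, ∀ X : ℕ, X0 ≤ X → √(X : ℝ) ≤ (primesIn X).card := by
  have hlo := (isLittleO_log_rpow_atTop (r := 1 / 2) (by norm_num)).def
    (c := 1 / 100) (by norm_num)
  obtain ⟨x0, hx0⟩ := Filter.eventually_atTop.1 hlo
  refine ⟨⌈x0⌉₊ + 3, fun X hX => ?_⟩
  have hX3 : 3 ≤ X := by omega
  have hXr : (3 : ℝ) ≤ X := by exact_mod_cast hX3
  have hX0r : x0 ≤ (X : ℝ) := by
    have h1 : x0 ≤ (⌈x0⌉₊ : ℝ) := Nat.le_ceil _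
    have h2 : ((⌈x0⌉₊ : ℕ) : ℝ) ≤ X := by
      have : ⌈x0⌉₊ ≤ X := by omega
      exact_mod_cast this
    linarith
  set v : ℝ := 4 * X + 1 with hv
  have hv1 : x0 ≤ v := by rw [hv]; linarith
  have hvpos : 0 < v := by rw [hv]; linarith
  have hlog : Real.log v ≤ 1 / 100 * √v := by
    have := hx0 v hv1
    rw [Real.norm_of_nonneg (Real.log_nonneg (by rw [hv]; linarith)),
      Real.norm_of_nonneg (by positivity), ← Real.sqrt_eq_rpow] at this
    exact this
  set s : ℝ := √(X : ℝ) with hs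
  have hs0 : 0 ≤ s := Real.sqrt_nonneg _
  have hss : s * s = X := Real.mul_self_sqrt (by positivity)
  have hs1 : 1 ≤ s := by
    rw [hs]
    apply Real.one_le_sqrt.2
    linarith
  have hvs : √v ≤ 3 * s := by
    apply Real.sqrt_le_iff.2
    constructor
    · positivity
    · rw [hv]; nlinarith
  have hlogv : Real.log v ≤ 3 / 100 * s := by linarith
  -- Chebyshev
  have h4X : ((4 * X : ℕ) : ℝ) = 4 * X := by push_cast; ring
  have hge := Chebyshev.theta_ge (4 * X)
  have hle := Chebyshev.theta_le_log4_mul_x (x := (X : ℝ)) (by positivity)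
  have hsplit := theta_split X
  rw [h4X] at hge hsplit
  have hlog4 : Real.log 4 = 2 * Real.log 2 := by
    have : (4 : ℝ) = 2 ^ 2 := by norm_num
    rw [this, Real.log_pow]; norm_num
  have hlog2 := Real.log_two_gt_d9
  have hlog4X : Real.log (4 * X) ≤ Real.log v :=
    Real.log_le_log (by positivity) (by rw [hv]; linarith)
  have hlog4Xpos : 0 < Real.log (4 * X) := Real.log_pos (by linarith)
  have hsum : ∑ p ∈ primesIn X, Real.log p ≤ (primesIn X).card * Real.log (4 * X) := by
    have : ∀ p ∈ primesIn X, Real.log p ≤ Real.log (4 * X) := by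
      intro p hp
      simp only [primesIn, mem_filter, mem_Ioc] at hp
      have hp0 : (0 : ℝ) < p := by exact_mod_cast hp.2.pos
      apply Real.log_le_log hp0
      have : (p : ℝ) ≤ ((4 * X : ℕ) : ℝ) := by exact_mod_cast hp.1.2
      rwa [h4X] at this
    simpa [nsmul_eq_mul] using sum_le_card_nsmul _ _ _ this
  have hsq4 : √(4 * (X : ℝ)) = 2 * s := by
    rw [Real.sqrt_mul (by norm_num), hs]
    have : √(4 : ℝ) = 2 := by
      rw [show (4 : ℝ) = 2 ^ 2 by norm_num]
      exact Real.sqrt_sq (by norm_num)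
    rw [this]
  rw [hsq4] at hge
  have hlogv1 : Real.log ((4 * X : ℝ) + 1) = Real.log v := by rw [hv]
  rw [hlogv1] at hge
  by_contra hcon
  push Not at hcon
  have h1 : ((primesIn X).card : ℝ) * Real.log (4 * X) ≤ s * Real.log v := by
    have h2 : ((primesIn X).card : ℝ) * Real.log (4 * X) ≤ s * Real.log (4 * X) := by
      gcongr
    have h3 : s * Real.log (4 * X) ≤ s * Real.log v := by gcongr
    linarith
  have h5 : 2 * s * Real.log (4 * X) ≤ 2 * s * Real.log v := by gcongr
  have hmain : 4 * (X : ℝ) * Real.log 2 - Real.log v - 2 * (2 * s) * Real.log v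
      ≤ 2 * Real.log 2 * X + s * Real.log v := by
    have h6 : 2 * (2 * s) * Real.log (4 * X) ≤ 2 * (2 * s) * Real.log v := by gcongr
    have : Chebyshev.theta (X : ℝ) ≤ 2 * Real.log 2 * X := by rw [hlog4] at hle; linarith
    linarith
  have hlv : 0 ≤ Real.log v := Real.log_nonneg (by rw [hv]; linarith)
  have h7 : Real.log v ≤ s * Real.log v := by nlinarith
  have h8 : s * Real.log v ≤ s * (3 / 100 * s) := by gcongr
  have h9 : 2 * (X : ℝ) * Real.log 2 ≤ 6 * (s * Real.log v) := by nlinarith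
  have h10 : 6 * (s * Real.log v) ≤ 18 / 100 * X := by
    rw [← hss]
    nlinarith
  have hXpos : (0 : ℝ) < X := by linarith
  nlinarith

end Vale.Agent.Lib.P057
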