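import Mathlib
import Vale.Agent.Lib.P057.PairCard
import Vale.Agent.Lib.P057.Primes

/-!
From the certificate for pairs of primes to the lower bound for the Roth number.
-/

namespace Vale.Agent.Lib.P057

open Finset

/-- The bound for the potential on a pair of primes in `(X, 4 X]`. -/
def Fp (A X : ℕ) : ℕ := A * (4 * X) ^ 2 + (4 * X + 1) ^ 2

/-- The arithmetic core: the table gives a dense set at every scale. -/
theorem core_of_table {T : Tbl} (hT : T.Valid) {cNum cDen : ℕ}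
    (hS : cNum * (T.G * T.N * T.D) < cDen * (T.G - 2) * T.S) (X n M : ℕ)
    (hX1 : T.G * T.N + T.D + 2 * cDen * T.N * (T.G - 2) * T.D + 2 ≤ X)
    (hcard : 2 * n ≤ (primesIn X).card) (hM : 0 < M) (hMX : M ≤ X ^ (2 * n)) :
    cNum ^ n * M ≤ cDen ^ n * (2 * (n * Fp (101 * (T.N * T.G) ^ 2) X + 1)) * rothNumberNat M := by
  set A := 101 * (T.N * T.G) ^ 2 with hA
  have hprime : ∀ p ∈ primesIn X, p.Prime := by
    intro p hp
    exact (mem_filter.1 hp).2
  have hrange : ∀ p ∈ primesIn X, X < p ∧ p ≤ 4 * X := by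
    intro p hp
    exact mem_Ioc.1 (mem_filter.1 hp).1
  have hodd : ∀ p ∈ primesIn X, Odd p := by
    intro p hp
    have h1 := hprime p hp
    have h2 := (hrange p hp).1
    exact h1.odd_of_ne_two (by omega)
  have pair : ∀ p ∈ primesIn X, ∀ q ∈ primesIn X, p ≠ q →
      ∃ K : Finset (ZMod p × ZMod q), ∃ f : ZMod p × ZMod q → ℕ,
        GoodSet K f ∧ cNum * (p * q) ≤ cDen * K.card ∧ ∀ x ∈ K, f x ≤ Fp A X := by
    intro p hp q hq _
    have : NeZero p := ⟨(hprime p hp).ne_zero⟩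
    have : NeZero q := ⟨(hprime q hq).ne_zero⟩
    obtain ⟨hp1, hp2⟩ := hrange p hp
    obtain ⟨hq1, hq2⟩ := hrange q hq
    obtain ⟨K, f, hK, hc, hf⟩ := Tbl.pair_cert hT hS (p := p) (P := q) (A := A) (hodd p hp)
      (hodd q hq) (by omega) (by omega) (by omega) (by omega) le_rfl
    refine ⟨K, f, hK, hc, fun x hx => (hf x hx).trans ?_⟩
    unfold Fp
    gcongr
  obtain ⟨L, hL0, hLX, _, K, f, hK, hc, hf⟩ :=
    exists_good_zmod cNum cDen (Fp A X) (primesIn X) hprime pair X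
      (fun p hp => (hrange p hp).1.le) n (primesIn X) (Subset.refl _) hcard
  have : NeZero L := ⟨hL0⟩
  have hLpos : 0 < L := Nat.pos_of_ne_zero hL0
  have hKr := card_le_mul_rothNumberNat K f hK (n * Fp A X) hf
  have hML : M ≤ L := hMX.trans hLX
  have hdens := rothNumberNat_density hM hML
  have hdens' : rothNumberNat L * M ≤ 2 * L * rothNumberNat M := by exact_mod_cast hdens
  have h1 : L * (cNum ^ n * M) ≤ L * (cDen ^ n * (2 * (n * Fp A X + 1)) * rothNumberNat M) := by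
    calc L * (cNum ^ n * M) = (cNum ^ n * L) * M := by ring
      _ ≤ (cDen ^ n * K.card) * M := Nat.mul_le_mul_right _ hc
      _ ≤ (cDen ^ n * (rothNumberNat L * (n * Fp A X + 1))) * M := by gcongr
      _ = cDen ^ n * (n * Fp A X + 1) * (rothNumberNat L * M) := by ring
      _ ≤ cDen ^ n * (n * Fp A X + 1) * (2 * L * rothNumberNat M) := by gcongr
      _ = L * (cDen ^ n * (2 * (n * Fp A X + 1)) * rothNumberNat M) := by ring
  exact Nat.le_of_mul_le_mul_left h1 hLpos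

theorem Fp_le (A X : ℕ) (hX : 1 ≤ X) : (Fp A X : ℝ) ≤ (16 * A + 25) * (X : ℝ) ^ 2 := by
  have hX1 : (1 : ℝ) ≤ X := by exact_mod_cast hX
  unfold Fp
  push_cast
  nlinarith

theorem E_le {n X B z F : ℝ} (hn : 1 ≤ n) (hX : 1 ≤ X) (hB : 1 ≤ B) (hF : F ≤ B * X ^ 2)
    (hXz : X ^ 2 ≤ 4 * Real.exp (2 * z)) : 2 * (n * F + 1) ≤ 16 * n * B * Real.exp (2 * z) := by
  have hBX : 1 ≤ B * X ^ 2 := by
    have h1 : (1 : ℝ) ≤ X ^ 2 := by nlinarith
    nlinarith
  have hn0 : 0 ≤ n := by linarith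
  have hB0 : 0 ≤ B := by linarith
  have h1 : n * F ≤ n * (B * X ^ 2) := by gcongr
  have h2 : (1 : ℝ) ≤ n * (B * X ^ 2) := by nlinarith
  have h3 : n * (B * X ^ 2) ≤ n * (B * (4 * Real.exp (2 * z))) := by gcongr
  nlinarith

theorem quad_bound {B y ε : ℝ} (hB : 0 ≤ B) (hε : 0 < ε) (hy : 64 * B / ε ^ 2 ≤ y) :
    32 * B * y ≤ Real.exp (ε * y) := by
  have hy0 : 0 ≤ y := le_trans (by positivity) hy
  have h0 := Real.quadratic_le_exp_of_nonneg (x := ε * y) (by positivity)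
  have h1 : 64 * B ≤ y * ε ^ 2 := (div_le_iff₀ (by positivity)).1 hy
  have h2 : 32 * B * y ≤ (ε * y) ^ 2 / 2 := by
    have := mul_le_mul_of_nonneg_right h1 hy0
    nlinarith
  have h3 : 0 ≤ ε * y := by positivity
  linarith

theorem expo_bound {a κ C ε δ n y z : ℝ} (ha : 0 ≤ a) (hδ : δ = C - (κ * a + 1 / κ + ε))
    (hz : 2 * z ≤ (1 / κ) * y) (hn : n < κ * y + 1) (hy : a ≤ δ * y) :
    a * n + (ε * y + 2 * z) ≤ C * y := by
  have h1 : a * n ≤ a * (κ * y + 1) := mul_le_mul_of_nonneg_left hn.le ha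
  have h2 : C = δ + (κ * a + 1 / κ + ε) := by rw [hδ]; ring
  rw [h2]
  nlinarith

theorem z_bounds {y n κ : ℝ} (hy : 0 < y) (hκ : 0 < κ) (hn1 : κ * y ≤ n) (hn2 : n ≤ 2 * y) :
    y / 4 ≤ y ^ 2 / (2 * n) ∧ 2 * (y ^ 2 / (2 * n)) ≤ (1 / κ) * y := by
  have hn : 0 < n := lt_of_lt_of_le (by positivity) hn1
  constructor
  · rw [le_div_iff₀ (by positivity)]
    nlinarith
  · have e : 2 * (y ^ 2 / (2 * n)) = y ^ 2 / n := by
      field_simp
    rw [e, div_le_iff₀ hn]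
    have h1 : (1 / κ) * (κ * y) = y := by field_simp
    have h2 : (1 / κ) * y * n ≥ (1 / κ) * y * (κ * y) := by
      apply mul_le_mul_of_nonneg_left hn1
      positivity
    have h3 : (1 / κ) * y * (κ * y) = y ^ 2 := by field_simp
    linarith

theorem sq_exp_bound {y : ℝ} (hy : 512 ≤ y) : 4 * y ≤ Real.exp (y / 8) := by
  have hy0 : 0 ≤ y := by linarith
  have h0 := Real.quadratic_le_exp_of_nonneg (x := y / 8) (by positivity)
  have h1 : 4 * y ≤ (y / 8) ^ 2 / 2 := by nlinarith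
  have h2 : 0 ≤ y / 8 := by positivity
  linarith

/-- The final arithmetic in the reals. -/
theorem final_step {N r E y C c d : ℝ} {k : ℕ} (hd : 0 < d) (hc : 0 < c) (hN : 0 < N) (hE : 0 < E)
    (hmain : c ^ k * N ≤ d ^ k * E * r)
    (hkey : d ^ k * E ≤ c ^ k * Real.exp (C * y)) :
    N * Real.exp (-C * y) ≤ r := by
  have h10pos : (0 : ℝ) < d ^ k * E := by positivity
  have hexpinv : Real.exp (-C * y) * Real.exp (C * y) = 1 := by
    rw [← Real.exp_add]
    have : -C * y + C * y = 0 := by ring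
    rw [this, Real.exp_zero]
  have hexpneg : 0 < Real.exp (-C * y) := Real.exp_pos _
  have hfinal : (d ^ k * E) * (N * Real.exp (-C * y)) ≤ (d ^ k * E) * r := by
    calc (d ^ k * E) * (N * Real.exp (-C * y))
        = (d ^ k * E) * Real.exp (-C * y) * N := by ring
      _ ≤ (c ^ k * Real.exp (C * y)) * Real.exp (-C * y) * N := by gcongr
      _ = c ^ k * N * (Real.exp (-C * y) * Real.exp (C * y)) := by ring
      _ = c ^ k * N := by rw [hexpinv, mul_one]
      _ ≤ d ^ k * E * r := hmain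
  exact le_of_mul_le_mul_left hfinal h10pos

theorem key_step {B y z a c d ε C : ℝ} {k : ℕ} {E : ℝ} (hc : 0 < c) (hd : 0 ≤ d)
    (hten : d ≤ c * Real.exp a) (hk : (k : ℝ) ≤ 2 * y) (hB : 0 ≤ B)
    (hE1 : E ≤ 16 * k * B * Real.exp (2 * z)) (h32 : 32 * B * y ≤ Real.exp (ε * y))
    (hexpo : a * (k : ℝ) + (ε * y + 2 * z) ≤ C * y) (hE0 : 0 ≤ E) :
    d ^ k * E ≤ c ^ k * Real.exp (C * y) := by
  have hE2 : E ≤ Real.exp (ε * y + 2 * z) := by
    rw [Real.exp_add]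
    have hexp2z : 0 < Real.exp (2 * z) := Real.exp_pos _
    have h1 : 16 * (k : ℝ) * B ≤ 32 * B * y := by nlinarith
    calc E ≤ 16 * k * B * Real.exp (2 * z) := hE1
      _ ≤ (32 * B * y) * Real.exp (2 * z) := by gcongr
      _ ≤ Real.exp (ε * y) * Real.exp (2 * z) := by gcongr
  have h10 : d ^ k ≤ c ^ k * Real.exp (a * k) := by
    have h1 : Real.exp (a * k) = Real.exp a ^ k := by
      rw [← Real.exp_nat_mul]
      congr 1
      ring
    rw [h1, ← mul_pow]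
    exact pow_le_pow_left₀ hd hten _
  calc d ^ k * E ≤ (c ^ k * Real.exp (a * k)) * Real.exp (ε * y + 2 * z) := by
        gcongr
    _ = c ^ k * Real.exp (a * k + (ε * y + 2 * z)) := by
        rw [Real.exp_add (a * (k : ℝ)) (ε * y + 2 * z)]; ring
    _ ≤ c ^ k * Real.exp (C * y) := by
        gcongr

/-- The analytic part, for a density `cNum / cDen` with `cDen ≤ cNum * exp a`. The parameter `κ`
balances the number of factors. -/
theorem final_bound (cNum cDen A X1 : ℕ) (hcNum : 0 < cNum) (hcDen : 0 < cDen) {a κ C ε : ℝ}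
    (hκ0 : 0 < κ) (hκ1 : κ ≤ 1) (hε : 0 < ε) (ha0 : 0 ≤ a)
    (hten : (cDen : ℝ) ≤ cNum * Real.exp a) (hC : κ * a + 1 / κ + ε < C)
    (hcore : ∀ X n M : ℕ, X1 ≤ X → 2 * n ≤ (primesIn X).card → 0 < M → M ≤ X ^ (2 * n) →
      cNum ^ n * M ≤ cDen ^ n * (2 * (n * Fp A X + 1)) * rothNumberNat M) :
    ∃ N0 : ℕ, ∀ N : ℕ, N0 ≤ N →
      (N : ℝ) * Real.exp (-C * √(Real.log N)) ≤ rothNumberNat N := by
  obtain ⟨X0, hX0⟩ := many_primes
  set B : ℝ := 16 * A + 25 with hB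
  have hA0 : (0 : ℝ) ≤ A := by positivity
  have hB0 : 0 < B := by rw [hB]; positivity
  have hX10 : (0 : ℝ) ≤ X1 := by positivity
  have hX00 : (0 : ℝ) ≤ X0 := by positivity
  set δ : ℝ := C - (κ * a + 1 / κ + ε) with hδ
  have hδ0 : 0 < δ := by rw [hδ]; linarith
  have ht1 : 0 ≤ 64 * B / ε ^ 2 := by positivity
  have ht2 : 0 ≤ a / δ := by positivity
  set y0 : ℝ := 512 + 2 / (2 - κ) + 4 * X0 + 4 * X1 + 64 * B / ε ^ 2 + a / δ with hy0
  have hκ2 : 0 < 2 - κ := by linarith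
  have ht3 : 0 ≤ 2 / (2 - κ) := by positivity
  have hy0pos : 0 < y0 := by rw [hy0]; linarith
  refine ⟨⌈Real.exp (y0 ^ 2)⌉₊ + 1, fun N hN => ?_⟩
  have hNpos : 0 < N := by omega
  have hNr : (0 : ℝ) < N := by exact_mod_cast hNpos
  have hN1 : Real.exp (y0 ^ 2) ≤ N := by
    have h1 : Real.exp (y0 ^ 2) ≤ (⌈Real.exp (y0 ^ 2)⌉₊ : ℝ) := Nat.le_ceil _
    have h2 : ((⌈Real.exp (y0 ^ 2)⌉₊ : ℕ) : ℝ) ≤ N := by
      have : ⌈Real.exp (y0 ^ 2)⌉₊ ≤ N := by omega
      exact_mod_cast this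
    linarith
  set l : ℝ := Real.log N with hl
  have hly0 : y0 ^ 2 ≤ l := (Real.le_log_iff_exp_le hNr).2 hN1
  have hl0 : 0 ≤ l := le_trans (sq_nonneg _) hly0
  set y : ℝ := √l with hy
  have hyy : y ^ 2 = l := Real.sq_sqrt hl0
  have hyy0 : y0 ≤ y := Real.le_sqrt_of_sq_le hly0
  have hyX0 : 4 * (X0 : ℝ) ≤ y := by rw [hy0] at hyy0; linarith
  have hyX1 : 4 * (X1 : ℝ) ≤ y := by rw [hy0] at hyy0; linarith
  have hyB : 64 * B / ε ^ 2 ≤ y := by rw [hy0] at hyy0; linarith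
  have hya : a / δ ≤ y := by rw [hy0] at hyy0; linarith
  have hy512 : 512 ≤ y := by rw [hy0] at hyy0; linarith
  have hy2 : 2 / (2 - κ) ≤ y := by rw [hy0] at hyy0; linarith
  have hypos : 0 < y := by linarith
  have hya' : a ≤ δ * y := by
    have := (div_le_iff₀ hδ0).1 hya
    linarith
  have hy2' : 2 ≤ y * (2 - κ) := (div_le_iff₀ hκ2).1 hy2
  set n : ℕ := ⌈κ * y⌉₊ with hn
  have hn1 : κ * y ≤ n := Nat.le_ceil _
  have hn2 : (n : ℝ) < κ * y + 1 := Nat.ceil_lt_add_one (by positivity)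
  have hnpos' : (0 : ℝ) < n := lt_of_lt_of_le (by positivity) hn1
  have hn2y : (n : ℝ) ≤ 2 * y := by linarith
  obtain ⟨hz1, hz2⟩ := z_bounds hypos hκ0 hn1 hn2y
  set z : ℝ := y ^ 2 / (2 * n) with hz
  have hzmul : z * (2 * n) = l := by rw [hz, ← hyy]; field_simp
  set X : ℕ := ⌈Real.exp z⌉₊ with hX
  have hX1' : Real.exp z ≤ X := Nat.le_ceil _
  have hexpz : 0 < Real.exp z := Real.exp_pos _
  have hX2' : (X : ℝ) < Real.exp z + 1 := Nat.ceil_lt_add_one hexpz.le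
  have hexpz1 : 1 ≤ Real.exp z := by
    apply Real.one_le_exp
    have : 0 ≤ y / 4 := by positivity
    linarith
  have hexpy : y / 4 + 1 ≤ Real.exp (y / 4) := by
    have := Real.add_one_le_exp (y / 4)
    linarith
  have hexpzy : Real.exp (y / 4) ≤ Real.exp z := Real.exp_le_exp.2 hz1
  have hXX1 : X1 ≤ X := by
    have : (X1 : ℝ) ≤ X := by linarith
    exact_mod_cast this
  have hXX0 : X0 ≤ X := by
    have : (X0 : ℝ) ≤ X := by linarith
    exact_mod_cast this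
  have hcardr := hX0 X hXX0
  have h8 : 4 * y ≤ Real.exp (y / 8) := sq_exp_bound hy512
  have h88 : Real.exp (y / 8) ^ 2 = Real.exp (y / 4) := by
    rw [← Real.exp_nat_mul]
    congr 1
    push_cast
    ring
  have h2nsq : (2 * (n : ℝ)) ^ 2 ≤ X := by
    have h1 : 2 * (n : ℝ) ≤ Real.exp (y / 8) := by linarith
    have h2 : (2 * (n : ℝ)) ^ 2 ≤ Real.exp (y / 8) ^ 2 := by gcongr
    linarith
  have hcard : 2 * n ≤ (primesIn X).card := by
    have : 2 * (n : ℝ) ≤ √(X : ℝ) := Real.le_sqrt_of_sq_le h2nsq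
    have h3 : 2 * (n : ℝ) ≤ (primesIn X).card := this.trans hcardr
    exact_mod_cast h3
  have hMX : N ≤ X ^ (2 * n) := by
    have h1 : (N : ℝ) = Real.exp z ^ (2 * n) := by
      rw [← Real.exp_nat_mul, ← Real.exp_log hNr]
      congr 1
      rw [← hl, ← hzmul]
      push_cast
      ring
    have h2 : Real.exp z ^ (2 * n) ≤ (X : ℝ) ^ (2 * n) := by gcongr
    have h3 : (N : ℝ) ≤ ((X ^ (2 * n) : ℕ) : ℝ) := by
      rw [h1]
      push_cast
      exact h2
    exact_mod_cast h3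
  have hmain := hcore X n N hXX1 hcard hNpos hMX
  have hmainr : (cNum : ℝ) ^ n * N ≤ cDen ^ n * (2 * (n * Fp A X + 1)) * rothNumberNat N := by
    exact_mod_cast hmain
  have hX1r : (1 : ℝ) ≤ X := by linarith
  have hX1n : 1 ≤ X := by exact_mod_cast hX1r
  have hFp := Fp_le A X hX1n
  have hn1r : (1 : ℝ) ≤ n := by
    have : 0 < n := by exact_mod_cast hnpos'
    exact_mod_cast this
  have hXsq : (X : ℝ) ^ 2 ≤ 4 * Real.exp (2 * z) := by
    have h1 : (X : ℝ) ≤ 2 * Real.exp z := by linarith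
    have h2 : (X : ℝ) ^ 2 ≤ (2 * Real.exp z) ^ 2 := by gcongr
    have h3 : Real.exp (2 * z) = Real.exp z ^ 2 := by
      rw [← Real.exp_nat_mul]
      push_cast
      rfl
    rw [h3]
    linarith [mul_pow 2 (Real.exp z) 2]
  have hB1 : (1 : ℝ) ≤ B := by rw [hB]; linarith
  have hE1 := E_le hn1r hX1r hB1 hFp hXsq
  have h32 := quad_bound hB0.le hε hyB
  have hexpo := expo_bound ha0 hδ hz2 hn2 hya'
  have hE0 : (0 : ℝ) < 2 * (n * (Fp A X : ℝ) + 1) := by positivity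
  have hcr : (0 : ℝ) < cNum := by exact_mod_cast hcNum
  have hdr : (0 : ℝ) < cDen := by exact_mod_cast hcDen
  have hkey := key_step hcr hdr.le hten hn2y hB0.le hE1 h32 hexpo hE0.le
  exact final_step hdr hcr hNr hE0 hmainr hkey

end Vale.Agent.Lib.P057
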