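import Mathlib
import Vale.Agent.Lib.P057.Check

/-!
A concrete block table, found by linear programming and verified by the kernel.
-/

namespace Vale.Agent.Lib.P057

/-- Packed starting points. -/
def packedA : ℕ := 2653170478505835906551208668607861709231660058490892000167633306306627532452151721088828257604746908716746992266735431739470757803961537716907350691823910527070416608113039166774349394153963070770486213551326098973107007558744015075347331906464629577411004137846577464662560971980814144425425241432708943058899891914680382250891825022743507524762352499032580745107989459416556199510974023015193302014501783292519396952961852405922009506543398618859070830476375742356137073527211455410174260897170440523806212914796517484213417522595075211737244921037824097476587056376257598006050406640836795999628876304327359307626928266467034245464116999860826010985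

/-- Packed lengths of the first arcs. -/
def packedW : ℕ := 159524863544096358806188119053136269181857554855223383459631043844232432500582735423534806054784995624295856449952836630123793757771749591567479862648340884088007723487883511304534808305725936731444034426420004765547907049700969181137520231666062472017636526184464076561897581980280814197929063078594050119081465329303512507570835057642451202873971256986524025189367663910722437579017374487589552223035397264813679004564566979409774078546959857174686026529952719895735249712377248938318716049220403603332919169137224597135018373601576458308913773408360549123492865893948292405012247133124876470111223816352345226623159021416207168550698722293313505177

/-- Packed lengths of the second arcs. -/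
def packedE : ℕ := 159524863544096358806188119053136269181857554855223383459631043844232432500582735423534806054784995624295856449952836630123793757771749591567479862643474615980007179074341133846326219260132779745532846634953135734804835500496950916663567909166008480830512456130605675941115502202438801691013506094062811552443313489083387146460228624847207162822833183200367930322615505565113725233393942998421156644519238230829840929165653736576261203499487524142100118273513243385522258336825781477794578332570157009970988766855759846461884011526231023805847627511811856337815922526400009656700662530320163606592655157607052202578707011623884985569972736580170809344

/-- Entry `g` of a packed list. -/
def entry (t g : ℕ) : ℕ := (t >>> (19 * g)) &&& 524287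

/-- The table. -/
def theTable : Tbl where
  N := 128
  H := 500000
  G := 2000
  α := entry packedA
  w := entry packedW
  e := entry packedE

theorem theTable_check : theTable.check 3 10 = true := by decide +kernel

theorem theTable_part0 : theTable.farRange 0 32 = true := by decide +kernel

theorem theTable_part1 : theTable.farRange 32 32 = true := by decide +kernel

theorem theTable_part2 : theTable.farRange 64 32 = true := by decide +kernel

theorem theTable_part3 : theTable.farRange 96 32 = true := by decide +kernel

theorem theTable_far : ∀ g3 < theTable.N, theTable.farRow g3 = true := by
  intro g3 hg3
  have hN : theTable.N = 128 := rfl
  rw [hN] at hg3
  by_cases h0 : g3 < 32
  · exact Tbl.farRange_spec theTable_part0 (by omega) (by omega)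
  by_cases h1 : g3 < 64
  · exact Tbl.farRange_spec theTable_part1 (by omega) (by omega)
  by_cases h2 : g3 < 96
  · exact Tbl.farRange_spec theTable_part2 (by omega) (by omega)
  by_cases h3 : g3 < 128
  · exact Tbl.farRange_spec theTable_part3 (by omega) (by omega)
  omega

theorem theTable_valid : theTable.Valid := (Tbl.valid_of_check theTable_check theTable_far).1

theorem theTable_area :
    3 * (theTable.G * theTable.N * theTable.D) < 10 * (theTable.G - 2) * theTable.S :=
  (Tbl.valid_of_check theTable_check theTable_far).2

end Vale.Agent.Lib.P057
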